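import Vale.Agent.P257.H314.E0.Engine
import Vale.Agent.P257.H941.FilMul

/-!
# P257 (helper314): `Θ` of products with `h_v` and `b_v`
-/

set_option linter.unusedSectionVars false

noncomputable section

namespace Vale.Agent.P257.H314.Eng

open Finset Vale.Agent.P257.H632 Vale.Agent.P257.H93 Vale.Agent.P257.H604
open Vale.Agent.P257.H314.E0 hiding Red Th sg sg_mul_self

section word

variable {I : Type} [DecidableEq I] [HasOrd I] {k : Type} [CommRing k] {p : ℕ}

theorem Ph_prod {T : Finset I} {F f : List (I →₀ ℕ) → EI I → k} {g : List (I →₀ ℕ) → k} {n : ℕ}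
    (h : ∀ l₁ l₂, l₁.length = n + 1 → F (l₁ ++ l₂) = g l₂ • f l₁) (l₁ l₂ : List (I →₀ ℕ))
    (h₁ : l₁.length = n) : Ph p T F (l₁ ++ l₂) = g l₂ • Ph p T f l₁ := by
  rw [Ph, Ph, Finset.smul_sum]
  refine Finset.sum_congr rfl fun v _ => ?_
  rw [← List.cons_append, ← List.cons_append, h _ _ (by simp [h₁]), h _ _ (by simp [h₁]), map_smul,
    map_smul, smul_add]

theorem iterate_Ph_prod {T : Finset I} (n : ℕ) : ∀ {F f : List (I →₀ ℕ) → EI I → k}
    {g : List (I →₀ ℕ) → k} (_ : ∀ l₁ l₂, l₁.length = n → F (l₁ ++ l₂) = g l₂ • f l₁)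
    (l : List (I →₀ ℕ)), ((Ph p T)^[n] F) l = g l • ((Ph p T)^[n] f) [] := by
  induction n with
  | zero =>
    intro F f g h l
    exact h [] l rfl
  | succ n ih =>
    intro F f g h l
    rw [Function.iterate_succ_apply, Function.iterate_succ_apply]
    exact ih (fun l₁ l₂ h₁ => Ph_prod h l₁ l₂ h₁) l

/-- the iterate does not depend on `T` -/
theorem iterate_eq_thW {T : Finset I} {n : ℕ} {f : List (I →₀ ℕ) → k} {e : EI I}
    (he : esup e ⊆ T) : ((Ph p T)^[n] (toC f one1)) [] e = thW p n e f := by
  let _ : LinearOrder I := lo I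
  have h : ∀ l (e : EI I), (toC f (one1 : EI I → k)) l e = io f (0 :: l) (toR e) := by
    intro l e
    change f l • (one1 : EI I → k) e = _
    rw [io_cons, one1]
    have h1 : toR e = 0 ↔ e = (∅, 0) := by
      constructor
      · intro h
        apply toR_injective
        rw [h]
        simp [toR]
      · rintro rfl
        simp [toR]
    by_cases h : e = (∅, 0)
    · rw [if_pos h, if_pos ⟨rfl, h1.2 h⟩]
      simp
    · rw [if_neg h, if_neg (fun h2 => h (h1.1 h2.2))]
      simp
  rw [iterate_Ph_eq (p := p) n (G := fun l r => io f (0 :: l) r) (fun l e _ => h l e) [] e he, thW,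
    iterate_Ph_eq (p := p) n (G := fun l r => io f (0 :: l) r) (fun l e _ => h l e) [] e
      (Finset.Subset.refl _)]

theorem single_ne {p : ℕ} (hp : 2 < p) (u v : I) :
    Finsupp.single u (p - 1) ≠ Finsupp.single v 1 := by
  intro h
  have h1 := DFunLike.congr_fun h v
  rw [Finsupp.single_eq_same, Finsupp.single_apply] at h1
  split_ifs at h1
  omega

/-- `Θ` of a product with `h_v`, on words -/
theorem thW_mul_h (hp : 2 < p) {n : ℕ} {F f : List (I →₀ ℕ) → k} {v : I}
    (h : ∀ l₁ l₂, l₁.length = n →
      F (l₁ ++ l₂) = f l₁ * if l₂ = [Finsupp.single v 1] then 1 else 0) (r : EI I) :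
    thW p (n + 1) r F = if v ∈ r.1 then (sg v r.1 : k) * thW p n (r.1.erase v, r.2) f else 0 := by
  classical
  set X := ((Ph p (esup r))^[n] (toC f one1)) [] with hX
  have h1 : ∀ l, ((Ph p (esup r))^[n] (toC F one1)) l =
      (if l = [Finsupp.single v 1] then (1 : k) else 0) • X := by
    refine iterate_Ph_prod n fun l₁ l₂ h₁ => ?_
    rw [toC, toC, h l₁ l₂ h₁, mul_comm, mul_smul]
  have h2 : ∀ u : I, ([Finsupp.single u 1] : List (I →₀ ℕ)) = [Finsupp.single v 1] ↔ u = v := by
    intro u
    rw [List.singleton_inj]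
    exact Finsupp.single_left_inj one_ne_zero
  have h3 : ∀ u : I, ([Finsupp.single u (p - 1)] : List (I →₀ ℕ)) ≠ [Finsupp.single v 1] := by
    intro u h
    rw [List.singleton_inj] at h
    exact single_ne hp u v h
  rw [thW, Function.iterate_succ_apply', Ph]
  simp only [h1, h2, if_neg (h3 _), zero_smul, map_zero, add_zero]
  rw [Finset.sum_apply]
  have h4 : ∀ u ∈ esup r, (lam u ((if u = v then (1 : k) else 0) • X)) r =
      if u = v then lam v X r else 0 := by
    intro u _
    split_ifs with h
    · rw [one_smul, h]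
    · rw [zero_smul, map_zero]
      rfl
  rw [Finset.sum_congr rfl h4, Finset.sum_ite_eq', lam_apply]
  by_cases hv : v ∈ r.1
  · have h5 : v ∈ esup r := by
      rw [esup]
      exact Finset.mem_union_left _ hv
    rw [if_pos h5, if_pos hv, if_pos hv, hX, iterate_eq_thW]
    intro u hu
    rw [esup] at hu ⊢
    rcases Finset.mem_union.1 hu with h6 | h6
    · exact Finset.mem_union_left _ (Finset.mem_of_mem_erase h6)
    · exact Finset.mem_union_right _ h6
  · rw [if_neg hv, if_neg hv, ite_self]

/-- the word cochain `b_v` -/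
def bw (p : ℕ) (v : I) (l : List (I →₀ ℕ)) : Prop :=
  ∃ a, 0 < a ∧ a < p ∧ l = [Finsupp.single v a, Finsupp.single v (p - a)]

theorem bw_iff (hp : 2 < p) (v u u' : I) (c c' : ℕ) (hc : c = 1 ∨ c = p - 1)
    (hc' : c' = 1 ∨ c' = p - 1) :
    bw p v [Finsupp.single u c, Finsupp.single u' c'] ↔ u = v ∧ u' = v ∧ c + c' = p := by
  constructor
  · rintro ⟨a, ha, ha', h⟩
    rw [List.cons_eq_cons, List.singleton_inj] at h
    obtain ⟨h1, h2⟩ := h
    rw [Finsupp.single_eq_single_iff] at h1 h2
    rcases h1 with h1 | h1
    · rcases h2 with h2 | h2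
      · exact ⟨h1.1, h2.1, by omega⟩
      · omega
    · omega
  · rintro ⟨rfl, rfl, h⟩
    exact ⟨c, by omega, by omega, by rw [show p - c = c' by omega]⟩

open Classical in
/-- `Θ` of a product with `b_v`, on words -/
theorem thW_mul_b (hp : 2 < p) {n : ℕ} {F f : List (I →₀ ℕ) → k} {v : I}
    (h : ∀ l₁ l₂, l₁.length = n → F (l₁ ++ l₂) = f l₁ * if bw p v l₂ then 1 else 0) (r : EI I) :
    thW p (n + 2) r F =
      if 1 ≤ r.2 v then thW p n (r.1, r.2 - Finsupp.single v 1) f else 0 := by
  set X := ((Ph p (esup r))^[n] (toC f one1)) [] with hX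
  have h1 : ∀ l, ((Ph p (esup r))^[n] (toC F one1)) l = (if bw p v l then (1 : k) else 0) • X := by
    refine iterate_Ph_prod n fun l₁ l₂ h₁ => ?_
    rw [toC, toC, h l₁ l₂ h₁, mul_comm, mul_smul]
  -- one more peeling
  have h2 : ∀ u', (Ph p (esup r) ((Ph p (esup r))^[n] (toC F one1))) [Finsupp.single u' 1] =
      if u' = v ∧ v ∈ esup r then kap v X else 0 := by
    intro u'
    rw [Ph]
    simp only [h1, bw_iff hp v _ u' 1 1 (Or.inl rfl) (Or.inl rfl),
      bw_iff hp v _ u' (p - 1) 1 (Or.inr rfl) (Or.inl rfl)]
    have e1 : ¬ (1 + 1 = p) := by omega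
    have e2 : p - 1 + 1 = p := by omega
    simp only [e1, e2, and_false, if_false, zero_smul, map_zero, zero_add, and_true]
    by_cases hu : u' = v
    · subst hu
      simp only [and_true, true_and, ite_smul, one_smul, zero_smul]
      have h4 : ∀ u ∈ esup r, (kap u (if u = u' then X else 0)) = if u = u' then kap u' X else 0 := by
        intro u _
        split_ifs with h
        · rw [h]
        · rw [map_zero]
      rw [Finset.sum_congr rfl h4, Finset.sum_ite_eq']
    · simp [hu]
  have h3 : ∀ u', (Ph p (esup r) ((Ph p (esup r))^[n] (toC F one1))) [Finsupp.single u' (p - 1)] =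
      if u' = v ∧ v ∈ esup r then lam v X else 0 := by
    intro u'
    rw [Ph]
    simp only [h1, bw_iff hp v _ u' 1 (p - 1) (Or.inl rfl) (Or.inr rfl),
      bw_iff hp v _ u' (p - 1) (p - 1) (Or.inr rfl) (Or.inr rfl)]
    have e1 : ¬ (p - 1 + (p - 1) = p) := by omega
    have e2 : 1 + (p - 1) = p := by omega
    simp only [e1, e2, and_false, if_false, zero_smul, map_zero, add_zero, and_true]
    by_cases hu : u' = v
    · subst hu
      simp only [and_true, true_and, ite_smul, one_smul, zero_smul]
      have h4 : ∀ u ∈ esup r, (lam u (if u = u' then X else 0)) = if u = u' then lam u' X else 0 := by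
        intro u _
        split_ifs with h
        · rw [h]
        · rw [map_zero]
      rw [Finset.sum_congr rfl h4, Finset.sum_ite_eq']
    · simp [hu]
  rw [thW, Function.iterate_succ_apply', Function.iterate_succ_apply', Ph]
  simp only [h2, h3]
  rw [Finset.sum_apply]
  by_cases hv : v ∈ esup r
  · simp only [hv, and_true]
    have h4 : ∀ u ∈ esup r, ((lam u (if u = v then kap v X else 0) +
        kap u (if u = v then lam v X else 0)) r : k) = if u = v then bmul v X r else 0 := by
      intro u _
      split_ifs with h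
      · rw [h, lam_kap_self]
      · rw [map_zero, map_zero, add_zero]
        rfl
    rw [Finset.sum_congr rfl h4, Finset.sum_ite_eq', if_pos hv, bmul_apply]
    by_cases hb : 1 ≤ r.2 v
    · rw [if_pos hb, if_pos hb, hX, iterate_eq_thW]
      intro u hu
      rw [esup] at hu ⊢
      rcases Finset.mem_union.1 hu with h6 | h6
      · exact Finset.mem_union_left _ h6
      · refine Finset.mem_union_right _ ?_
        rw [Finsupp.mem_support_iff] at h6 ⊢
        rw [Finsupp.coe_tsub, Pi.sub_apply] at h6
        omega
    · rw [if_neg hb, if_neg hb]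
  · simp only [hv, and_false, if_false, map_zero, add_zero]
    rw [if_neg]
    · simp
    · intro hb
      apply hv
      rw [esup, Finset.mem_union, Finsupp.mem_support_iff]
      right
      omega

end word

variable {p : ℕ} [hp : Fact p.Prime] {μ : ℕ × ℕ → ℕ} {n m : ℕ}

theorem X_pow_eq_wordP (v : ℕ × ℕ) : (MvPolynomial.X (0, v.1) ^ (p ^ v.2) : CobP p 1) =
    wordP p 1 [Finsupp.single v 1] := by
  have h1 : toE p 1 [Finsupp.single v 1] = Finsupp.single ((0 : Fin 1), v.1) (p ^ v.2) := by
    ext ⟨k, i⟩
    rw [toE_apply]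
    have hk : k = 0 := Subsingleton.elim _ _
    subst hk
    rw [vl]
    change (Finsupp.single v 1).sum _ = _
    rw [Finsupp.sum_single_index (by simp), Finsupp.single_apply]
    simp
  have h2 : fac [Finsupp.single v 1] = 1 := by
    rw [fac, List.map_singleton, List.prod_singleton, Finsupp.prod_single_index (by simp)]
    rfl
  rw [wordP, h1, h2, MvPolynomial.X_pow_eq_monomial]
  simp

theorem symb_X_pow (v : ℕ × ℕ) (l : List Ex) :
    symb 1 (MvPolynomial.X (0, v.1) ^ (p ^ v.2) : CobP p 1) l =
      if l = [Finsupp.single v 1] then 1 else 0 := by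
  rw [X_pow_eq_wordP, symb_wordP (n := 1) (l := [Finsupp.single v 1]) rfl]
  intro e he u
  rw [List.mem_singleton] at he
  subst he
  rw [Finsupp.single_apply]
  split_ifs
  · exact hp.out.one_lt
  · exact hp.out.pos

/-- the symbol of a cup product, all lengths of the second factor -/
theorem symb_cupP' {a b : ℕ} (x : CobP p a) (y : CobP p b) (l₁ l₂ : List Ex)
    (h₁ : l₁.length = a) : symb (a + b) (cupP x y) (l₁ ++ l₂) = symb a x l₁ * symb b y l₂ := by
  by_cases h₂ : l₂.length = b
  · exact Vale.Agent.P257.H941.symb_cupP x y l₁ l₂ h₁ h₂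
  · have e1 : symb b y l₂ = 0 := by
      by_contra h
      exact h₂ (symb_supp _ _ h).1
    have e2 : symb (a + b) (cupP x y) (l₁ ++ l₂) = 0 := by
      by_contra h
      have := (symb_supp _ _ h).1
      rw [List.length_append] at this
      omega
    rw [e1, e2, mul_zero]

/-- (M1) product with `h_v` -/
theorem Th_cup_h (hp2 : 2 < p) (z : CobP p n) (r : EI (ℕ × ℕ)) (v : ℕ × ℕ) :
    H632.Th (n + 1) r (cupP z (MvPolynomial.X (0, v.1) ^ (p ^ v.2) : CobP p 1)) =
      if v ∈ r.1 then (sg v r.1 : ZMod p) * H632.Th n (r.1.erase v, r.2) z else 0 := by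
  refine thW_mul_h hp2 (fun l₁ l₂ h₁ => ?_) r
  rw [symb_cupP' _ _ _ _ h₁, symb_X_pow]

theorem lev_append (l₁ l₂ : List Ex) : lev μ (l₁ ++ l₂) = lev μ l₁ + lev μ l₂ := by
  rw [lev, lev, lev, List.map_append, List.sum_append]

theorem lev_pair (v : ℕ × ℕ) (a b : ℕ) :
    lev μ [Finsupp.single v a, Finsupp.single v b] = (a + b) * μ v := by
  rw [lev_eq]
  simp [lv, Finsupp.sum_add_index', add_mul]

open Classical in
/-- (M2) product with `b_v`; `w` has the leading symbol of `b_v` -/
theorem Th_cup_b (hp2 : 2 < p) {z : CobP p n} (hz : z ∈ Fil μ n (m + 1)) {v : ℕ × ℕ}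
    {w : CobP p 2} (hw : w ∈ Fil μ 2 (p * μ v + 1))
    (hws : ∀ l : List Ex, lev μ l = p * μ v → symb 2 w l =
      if ∃ a, 0 < a ∧ a < p ∧ l = [Finsupp.single v a, Finsupp.single v (p - a)] then 1 else 0)
    (r : EI (ℕ × ℕ)) (hr : m + p * μ v ≤ levM p μ r) :
    H632.Th (n + 2) r (cupP z w) =
      if 1 ≤ r.2 v then H632.Th n (r.1, r.2 - Finsupp.single v 1) z else 0 := by
  -- the product with the exact symbol of `b_v`
  let F' : List Ex → ZMod p := fun l => symb n z (l.take n) * if bw p v (l.drop n) then 1 else 0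
  have hF' : ∀ l₁ l₂ : List Ex, l₁.length = n →
      F' (l₁ ++ l₂) = symb n z l₁ * if bw p v l₂ then 1 else 0 := by
    intro l₁ l₂ h₁
    change symb n z ((l₁ ++ l₂).take n) * (if bw p v ((l₁ ++ l₂).drop n) then 1 else 0) = _
    rw [List.take_left' h₁, List.drop_left' h₁]
  have h1 := thW_mul_b (p := p) hp2 hF' r
  have h2 : thW p (n + 2) r (fun l => symb (n + 2) (cupP z w) l - F' l) = 0 := by
    by_contra h
    have h3 : ∀ l, symb (n + 2) (cupP z w) l - F' l ≠ 0 →
        l.length = n + 2 ∧ l.sum ∈ {A : Ex | lv μ A < levM p μ r} ∧ H632.Red p l := by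
      intro l hl
      have hsplit : l = l.take n ++ l.drop n := (List.take_append_drop n l).symm
      have hcup : symb (n + 2) (cupP z w) l =
          if l.length = n + 2 then symb n z (l.take n) * symb 2 w (l.drop n) else 0 := by
        split_ifs with h4
        · conv_lhs => rw [hsplit]
          exact symb_cupP' z w _ _ (by rw [List.length_take]; omega)
        · by_contra h5
          exact h4 (symb_supp _ _ h5).1
      by_cases hlen : l.length = n + 2
      · rw [hcup, if_pos hlen] at hl
        change symb n z (l.take n) * symb 2 w (l.drop n) -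
          symb n z (l.take n) * (if bw p v (l.drop n) then 1 else 0) ≠ 0 at hl
        rw [← mul_sub] at hl
        have hz1 : symb n z (l.take n) ≠ 0 := left_ne_zero_of_mul hl
        have hw1 := right_ne_zero_of_mul hl
        have hz2 : lev μ (l.take n) ≤ m := by
          by_contra h5
          exact hz1 (hz _ (by omega))
        have hw2 : lev μ (l.drop n) < p * μ v := by
          by_contra h5
          rw [not_lt] at h5
          apply hw1
          rcases h5.lt_or_eq with h6 | h6
          · rw [hw _ (by omega), if_neg, sub_zero]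
            rintro ⟨a, ha, ha', h7⟩
            rw [h7, lev_pair, show a + (p - a) = p by omega] at h6
            exact lt_irrefl _ h6
          · rw [hws _ h6.symm]
            exact sub_self _
        refine ⟨hlen, ?_, ?_⟩
        · rw [Set.mem_ofPred_eq, ← lev_eq, hsplit, lev_append]
          omega
        · intro e he u
          rw [hsplit, List.mem_append] at he
          rcases he with he | he
          · exact (symb_supp _ _ hz1).2 e he u
          · by_cases h8 : symb 2 w (l.drop n) = 0
            · rw [h8, zero_sub, neg_ne_zero] at hw1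
              have h9 : bw p v (l.drop n) := by
                by_contra h10
                exact hw1 (if_neg h10)
              obtain ⟨a, ha, ha', h10⟩ := h9
              rw [h10] at he
              simp only [List.mem_cons, List.not_mem_nil, or_false] at he
              rcases he with rfl | rfl
              · rw [Finsupp.single_apply]
                split_ifs <;> omega
              · rw [Finsupp.single_apply]
                split_ifs <;> omega
            · exact (symb_supp _ _ h8).2 e he u
      · exfalso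
        rw [hcup, if_neg hlen, zero_sub, neg_ne_zero] at hl
        change symb n z (l.take n) * (if bw p v (l.drop n) then 1 else 0) ≠ 0 at hl
        have hz1 := (symb_supp _ _ (left_ne_zero_of_mul hl)).1
        have hb1 : bw p v (l.drop n) := by
          by_contra h10
          exact right_ne_zero_of_mul hl (if_neg h10)
        obtain ⟨a, ha, ha', h10⟩ := hb1
        have h11 := congrArg List.length h10
        rw [List.length_drop] at h11
        rw [List.length_take] at hz1
        simp only [List.length_cons, List.length_nil] at h11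
        omega
    have h4 := (thW_ne_zero hp.out.two_le h3 h).2
    rw [Set.mem_ofPred_eq, ← levM_eq] at h4
    exact lt_irrefl _ h4
  rw [thW_sub, sub_eq_zero] at h2
  change thW p (n + 2) r (symb (n + 2) (cupP z w)) = _
  rw [h2, h1]
  rfl

end Vale.Agent.P257.H314.Eng

end
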