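import Vale.Agent.P257.H314.E0.Theta
import Vale.Agent.P257.H632.Defs

/-!
# P257 (helper314): the `E₀`-level theorems in helper632's notation

* `thW_dK` : word-level T1; `exists_dK_eq` : word-level T2; `thW_ne_zero` : supports.
-/

set_option linter.unusedSectionVars false

noncomputable section

namespace Vale.Agent.P257.H314.E0

open Finset Vale.Agent.P257.H632

universe uV uk

section peel

variable {V : Type uV} [LinearOrder V] {k : Type uk} [CommRing k] {p : ℕ}

/-- peeling off the first letter -/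
def peel (p : ℕ) (F : Fn V k) : Fn V k := fun l r =>
  ∑ v ∈ r.support, sg v r • F (Finsupp.single v (cc p (r v)) :: l) (r - Finsupp.single v 1)

theorem hh_del (F : Fn V k) : hh (del p F) = peel p F := by
  funext l r
  refine Finset.sum_congr rfl fun v hv => ?_
  rw [tt, if_neg (Finsupp.mem_support_iff.1 hv), zero_add]

theorem theta_eq_peel (n : ℕ) (F : Fn V k) (r : V →₀ ℕ) :
    theta p n F r = ((peel p)^[n] (hh F)) [] r := by
  induction n generalizing F with
  | zero => rfl
  | succ n ih => rw [theta_succ, ih, hh_del, Function.iterate_succ_apply]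

theorem theta_ne_zero (hp : 2 ≤ p) {n b : ℕ} {𝒜 : Set (V →₀ ℕ)} {F : Fn V k}
    (hF : Sup p (n + 1) b 𝒜 F) {r : V →₀ ℕ} (h : theta p n F r ≠ 0) :
    r.degree = n + b ∧ dg p r ∈ 𝒜 := by
  induction n generalizing F b with
  | zero =>
    obtain ⟨-, h1, h2, -⟩ := hF _ _ h
    refine ⟨by omega, ?_⟩
    simpa using h2
  | succ n ih =>
    obtain ⟨h1, h2⟩ := ih (hF.hh.del hp) h
    exact ⟨by omega, h2⟩

theorem Th_ne_zero (hp : 2 ≤ p) {n : ℕ} {𝒜 : Set (V →₀ ℕ)} {f : List (V →₀ ℕ) → k}
    (hf : SupT p n 𝒜 f) {r : V →₀ ℕ} (h : E0.Th p n f r ≠ 0) : r.degree = n ∧ dg p r ∈ 𝒜 := by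
  have := theta_ne_zero hp (hf.io hp) h
  simpa using this

theorem Th_sub (n : ℕ) (f g : List (V →₀ ℕ) → k) (r : V →₀ ℕ) :
    E0.Th p n (fun l => f l - g l) r = E0.Th p n f r - E0.Th p n g r := by
  rw [E0.Th, E0.Th, E0.Th, ← theta_sub]
  congr 1
  funext l r
  cases l with
  | nil => simp [io]
  | cons y l =>
    simp only [io_cons]
    split_ifs <;> simp

end peel

variable {I : Type} [DecidableEq I] [HasOrd I] {k : Type} [CommRing k] {p : ℕ}

variable (I) in
/-- the linear order given by `ord` -/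
abbrev lo : LinearOrder I := LinearOrder.lift' (ord : I → ℕ) HasOrd.inj

/-- the exponent `r_v = [v ∈ S] + 2 β_v` of `(S, β)` -/
def toR (e : EI I) : I →₀ ℕ := (∑ u ∈ e.1, Finsupp.single u 1) + (e.2 + e.2)

theorem toR_apply (e : EI I) (v : I) : toR e v = (if v ∈ e.1 then 1 else 0) + 2 * e.2 v := by
  rw [toR, Finsupp.add_apply, Finsupp.add_apply, Finsupp.finsetSum_apply]
  congr 1
  · rw [← Finset.sum_ite_eq' e.1 v (fun _ => 1)]
    refine Finset.sum_congr rfl fun u _ => ?_
    rw [Finsupp.single_apply]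
  · ring

theorem toR_injective : Function.Injective (toR : EI I → I →₀ ℕ) := by
  rintro ⟨S, β⟩ ⟨S', β'⟩ h
  have h1 : ∀ v, (if v ∈ S then 1 else 0) + 2 * β v = (if v ∈ S' then 1 else 0) + 2 * β' v := by
    intro v
    have := DFunLike.congr_fun h v
    rwa [toR_apply, toR_apply] at this
  refine Prod.ext ?_ ?_
  · ext v
    have := h1 v
    by_cases h2 : v ∈ S <;> by_cases h3 : v ∈ S' <;> simp only [h2, h3, if_true, if_false] at this ⊢
    · omega
    · omega
  · ext v
    have := h1 v
    simp only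
    split_ifs at this <;> omega

theorem toR_surjective : Function.Surjective (toR : EI I → I →₀ ℕ) := by
  intro r
  refine ⟨(r.support.filter fun v => r v % 2 = 1, r.mapRange (· / 2) (by simp)), ?_⟩
  ext v
  rw [toR_apply]
  simp only [Finset.mem_filter, Finsupp.mem_support_iff, Finsupp.mapRange_apply]
  split_ifs with h
  · omega
  · by_cases h0 : r v = 0
    · omega
    · have : ¬ r v % 2 = 1 := fun h1 => h ⟨h0, h1⟩
      omega

theorem sg_toR (e : EI I) (v : I) : @E0.sg I (lo I) v (toR e) = H632.sg v e.1 := by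
  let _ : LinearOrder I := lo I
  have h2 : ∀ S : Finset I, E0.sg v (∑ u ∈ S, Finsupp.single u 1) = H632.sg v S := by
    intro S
    have : ∀ S : Finset I, E0.sg v (∑ u ∈ S, Finsupp.single u 1) =
        ∏ u ∈ S, (if u < v then -1 else 1) := by
      classical
      intro S
      induction S using Finset.induction_on with
      | empty =>
        rw [Finset.sum_empty, Finset.prod_empty, E0.sg, Finsupp.filter_zero, map_zero, pow_zero]
      | insert a s ha ih =>
        rw [Finset.sum_insert ha, Finset.prod_insert ha, sg_add, ih, sg_single]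
    rw [this, Finset.prod_ite, Finset.prod_const, Finset.prod_const_one, mul_one, H632.sg]
    congr 2
  rw [toR, sg_add, sg_add, sg_mul_self, mul_one, h2]

/-- `dC` and `bb` agree. -/
theorem dC_eq (l : List (I →₀ ℕ)) (f : List (I →₀ ℕ) → k) : dC l f = @bb I (lo I) k _ l f := by
  let _ : LinearOrder I := lo I
  induction l generalizing f with
  | nil => rfl
  | cons y l ih =>
    cases l with
    | nil =>
      rw [dC, bb_one]
      by_cases h : y = 0
      · rw [if_pos h, if_pos h]
      · rw [if_neg h, if_neg h]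
    | cons w l => rw [dC, bb_cons, ih]

/-- `dK` and `dd` agree. -/
theorem dK_eq (f : List (I →₀ ℕ) → k) : dK f = @dd I (lo I) k _ f := by
  let _ : LinearOrder I := lo I
  funext l
  cases l with
  | nil => rfl
  | cons w l =>
    rw [dK, dd_cons, dC_eq]
    by_cases h : w = 0
    · rw [if_pos h, if_pos h]
    · rw [if_neg h, if_neg h]

theorem esup_eq (e : EI I) : esup e = (toR e).support := by
  ext v
  rw [esup, Finset.mem_union, Finsupp.mem_support_iff, Finsupp.mem_support_iff, toR_apply]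
  split_ifs with h <;> simp [h]

theorem toR_sub_erase {e : EI I} {v : I} (h : v ∈ e.1) :
    toR e - Finsupp.single v 1 = toR (e.1.erase v, e.2) := by
  ext u
  rw [Finsupp.coe_tsub, Pi.sub_apply, toR_apply, toR_apply]
  by_cases hu : u = v
  · subst hu
    rw [Finsupp.single_eq_same]
    simp [h]
  · rw [Finsupp.single_eq_of_ne hu]
    simp [hu]

theorem toR_sub_insert {e : EI I} {v : I} (h : v ∉ e.1) (h1 : 1 ≤ e.2 v) :
    toR e - Finsupp.single v 1 = toR (insert v e.1, e.2 - Finsupp.single v 1) := by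
  ext u
  rw [Finsupp.coe_tsub, Pi.sub_apply, toR_apply, toR_apply]
  by_cases hu : u = v
  · subst hu
    rw [Finsupp.single_eq_same]
    simp only [h, if_false, Finset.mem_insert_self, if_true, Finsupp.coe_tsub, Pi.sub_apply,
      Finsupp.single_eq_same]
    omega
  · rw [Finsupp.single_eq_of_ne hu]
    simp [hu, Finsupp.single_eq_of_ne hu]

/-- The operators agree. -/
theorem Ph_eq {T : Finset I} {F : List (I →₀ ℕ) → EI I → k} {G : List (I →₀ ℕ) → (I →₀ ℕ) → k}
    (h : ∀ l e, esup e ⊆ T → F l e = G l (toR e)) (l : List (I →₀ ℕ)) (e : EI I)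
    (he : esup e ⊆ T) : Ph p T F l e = @peel I (lo I) k _ p G l (toR e) := by
  let _ : LinearOrder I := lo I
  have h1 : peel p G l (toR e) = ∑ v ∈ T, if toR e v = 0 then 0 else
      sg v (toR e) • G (Finsupp.single v (cc p (toR e v)) :: l) (toR e - Finsupp.single v 1) := by
    rw [peel]
    refine Eq.trans (Finset.sum_congr rfl fun v hv => ?_)
      (Finset.sum_subset (s₁ := (toR e).support) (esup_eq e ▸ he) fun v _ hv => ?_)
    · rw [if_neg (Finsupp.mem_support_iff.1 hv)]
    · rw [if_pos (Finsupp.notMem_support_iff.1 hv)]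
  rw [h1, Ph, Finset.sum_apply]
  refine Finset.sum_congr rfl fun v hv => ?_
  rw [Pi.add_apply, lam_apply, kap_apply]
  by_cases hve : v ∈ e.1
  · have e1 : toR e v = 1 + 2 * e.2 v := by rw [toR_apply, if_pos hve]
    have e2 : cc p (toR e v) = 1 := by
      rw [e1, cc, if_pos (by omega)]
    rw [if_pos hve, if_neg (fun h => h.1 hve), if_neg (by omega), e2, sg_toR,
      toR_sub_erase hve, add_zero, zsmul_eq_mul, h]
    intro u hu
    apply he
    rw [esup] at hu ⊢
    rcases Finset.mem_union.1 hu with h3 | h3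
    · exact Finset.mem_union_left _ (Finset.mem_of_mem_erase h3)
    · exact Finset.mem_union_right _ h3
  · by_cases hb : 1 ≤ e.2 v
    · have e1 : toR e v = 2 * e.2 v := by rw [toR_apply, if_neg hve, zero_add]
      have e2 : cc p (toR e v) = p - 1 := by
        rw [e1, cc, if_neg (by omega)]
      rw [if_neg hve, if_pos ⟨hve, hb⟩, if_neg (by omega), e2, sg_toR,
        toR_sub_insert hve hb, zero_add, zsmul_eq_mul, h]
      intro u hu
      rw [esup, Finset.mem_union, Finset.mem_insert] at hu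
      rcases hu with (rfl | h3) | h3
      · exact hv
      · exact he (by rw [esup]; exact Finset.mem_union_left _ h3)
      · apply he
        rw [esup, Finset.mem_union, Finsupp.mem_support_iff]
        rw [Finsupp.mem_support_iff, Finsupp.coe_tsub, Pi.sub_apply] at h3
        right
        intro h4
        apply h3
        rw [h4]
        simp
    · rw [if_neg hve, if_neg (fun h => hb h.2), if_pos, add_zero]
      rw [toR_apply, if_neg hve]
      omega

theorem iterate_Ph_eq {T : Finset I} (n : ℕ) {F : List (I →₀ ℕ) → EI I → k}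
    {G : List (I →₀ ℕ) → (I →₀ ℕ) → k}
    (h : ∀ l e, esup e ⊆ T → F l e = G l (toR e)) (l : List (I →₀ ℕ)) (e : EI I)
    (he : esup e ⊆ T) :
    ((Ph p T)^[n] F) l e = ((@peel I (lo I) k _ p)^[n] G) l (toR e) := by
  induction n generalizing F G with
  | zero => exact h l e he
  | succ n ih =>
    rw [Function.iterate_succ_apply, Function.iterate_succ_apply]
    exact ih fun l e he => Ph_eq h l e he

/-- The functionals agree. -/
theorem thW_eq (n : ℕ) (r : EI I) (f : List (I →₀ ℕ) → k) :
    thW p n r f = @E0.Th I (lo I) k _ p n f (toR r) := by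
  let _ : LinearOrder I := lo I
  rw [thW, E0.Th, theta_eq_peel]
  refine iterate_Ph_eq n (fun l e _ => ?_) [] r (Finset.Subset.refl _)
  change f l • one1 e = io f (0 :: l) (toR e)
  rw [io_cons, one1]
  have h1 : toR e = 0 ↔ e = (∅, 0) := by
    constructor
    · intro h
      apply toR_injective
      rw [h]
      simp [toR]
    · rintro rfl
      simp [toR]
  by_cases h : e = (∅, 0)
  · rw [if_pos h, if_pos ⟨rfl, h1.2 h⟩]
    simp
  · rw [if_neg h, if_neg (fun h2 => h (h1.1 h2.2))]
    simp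

/-- degrees -/
theorem degree_toR (e : EI I) : (toR e).degree = degM e := by
  rw [toR, degM, map_add, map_add, map_sum]
  have h1 : ∑ x ∈ e.1, Finsupp.degree (Finsupp.single x 1) = e.1.card := by
    simp
  have : (e.2.sum fun _ c => c) = Finsupp.degree e.2 := rfl
  rw [h1, this]
  omega

/-- the multidegree of a monomial -/
def mdeg (p : ℕ) (e : EI I) : I →₀ ℕ := dg p (toR e)

theorem mdeg_apply (e : EI I) (v : I) :
    mdeg p e v = (if v ∈ e.1 then 1 else 0) + p * e.2 v := by
  let _ : LinearOrder I := lo I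
  rw [mdeg, dg_apply, toR_apply, dg1]
  split_ifs with h
  · have h1 : (1 + 2 * e.2 v) / 2 = e.2 v := by omega
    rw [h1]
    omega
  · have h1 : (0 + 2 * e.2 v) / 2 = e.2 v := by omega
    rw [h1]
    omega

/-- Word-level supports. -/
theorem thW_ne_zero (hp : 2 ≤ p) {n : ℕ} {𝒜 : Set (I →₀ ℕ)} {f : List (I →₀ ℕ) → k}
    (hf : ∀ l, f l ≠ 0 → l.length = n ∧ l.sum ∈ 𝒜 ∧ H632.Red p l) {r : EI I}
    (h : thW p n r f ≠ 0) : degM r = n ∧ mdeg p r ∈ 𝒜 := by
  let _ : LinearOrder I := lo I
  rw [thW_eq] at h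
  have := Th_ne_zero hp (𝒜 := 𝒜) (fun l hl => hf l hl) h
  rw [degree_toR] at this
  exact this

theorem thW_sub (n : ℕ) (r : EI I) (f g : List (I →₀ ℕ) → k) :
    thW p n r (fun l => f l - g l) = thW p n r f - thW p n r g := by
  let _ : LinearOrder I := lo I
  rw [thW_eq, thW_eq, thW_eq, Th_sub]

/-- **Word-level T1**. -/
theorem thW_dK (hp : 2 ≤ p) (n : ℕ) {f : List (I →₀ ℕ) → k} (hf : ∀ l, f l ≠ 0 → H632.Red p l)
    (r : EI I) : thW p (n + 1) r (dK f) = 0 := by
  let _ : LinearOrder I := lo I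
  rw [thW_eq, dK_eq]
  exact Th_dd hp n hf _

/-- **Word-level T2**. -/
theorem exists_dK_eq (hp : 2 ≤ p) {n : ℕ} {𝒜 : Set (I →₀ ℕ)} {f : List (I →₀ ℕ) → k}
    (hf : ∀ l, f l ≠ 0 → l.length = n + 1 ∧ l.sum ∈ 𝒜 ∧ H632.Red p l) (hd : ∀ l, dK f l = 0)
    (ht : ∀ r : EI I, degM r = n + 1 → mdeg p r ∈ 𝒜 → thW p (n + 1) r f = 0) :
    ∃ g : List (I →₀ ℕ) → k, (∀ l, g l ≠ 0 → l.length = n ∧ l.sum ∈ 𝒜 ∧ H632.Red p l) ∧ dK g = f := by
  let _ : LinearOrder I := lo I
  obtain ⟨g, hg, hgf⟩ := exists_dd_eq (𝒜 := 𝒜) (f := f) (n := n) hp (fun l hl => hf l hl)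
    (by rw [← dK_eq]; funext l; exact hd l) (fun r => by
      obtain ⟨r, rfl⟩ := toR_surjective r
      rw [← thW_eq]
      by_contra h
      obtain ⟨h1, h2⟩ := thW_ne_zero hp hf h
      exact h (ht r h1 h2))
  exact ⟨g, fun l hl => hg l hl, by rw [dK_eq]; exact hgf⟩

end Vale.Agent.P257.H314.E0

end
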