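import Vale.Agent.P257.H314.E0.Bridge
import Vale.Agent.P257.H604.Sym

/-!
# P257 (helper314): T0, T1, T2 on `CobP p n`

`SymbDP p` is the statement on the leading part of the differential (helper134); the theorems
`Th_dP` (T1) and `exists_sub_mem` (T2) take it as a hypothesis.
-/

set_option linter.unusedSectionVars false

noncomputable section

namespace Vale.Agent.P257.H314.Eng

open Finset Vale.Agent.P257.H632 Vale.Agent.P257.H93 Vale.Agent.P257.H604
open Vale.Agent.P257.H314.E0 hiding Red Th sg sg_mul_self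

variable {p : ℕ} [hp : Fact p.Prime] {μ : ℕ × ℕ → ℕ} {n m W : ℕ}

/-- the level of a multidegree -/
def lv (μ : ℕ × ℕ → ℕ) (A : Ex) : ℕ := A.sum fun v c => c * μ v

omit hp in
theorem lv_add (A B : Ex) : lv μ (A + B) = lv μ A + lv μ B := by
  rw [lv, Finsupp.sum_add_index' (by simp) (fun _ _ _ => by ring)]
  rfl

omit hp in
theorem lev_eq (l : List Ex) : lev μ l = lv μ l.sum := by
  induction l with
  | nil => simp [lev, lv]
  | cons y l ih =>
    rw [List.sum_cons, lv_add, ← ih]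
    simp [lev, lv]

omit hp in
theorem levM_eq (r : EI (ℕ × ℕ)) : levM p μ r = lv μ (mdeg p r) := by
  have h1 : mdeg p r = (∑ u ∈ r.1, Finsupp.single u 1) + p • r.2 := by
    ext v
    rw [mdeg_apply, Finsupp.add_apply, Finsupp.finsetSum_apply, Finsupp.smul_apply, smul_eq_mul]
    congr 1
    rw [← Finset.sum_ite_eq' r.1 v (fun _ => 1)]
    refine Finset.sum_congr rfl fun u _ => ?_
    rw [Finsupp.single_apply]
  have h2 : ∀ S : Finset (ℕ × ℕ), lv μ (∑ u ∈ S, Finsupp.single u 1) = ∑ u ∈ S, μ u := by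
    intro S
    induction S using Finset.induction_on with
    | empty => simp [lv]
    | insert a s ha ih =>
      rw [Finset.sum_insert ha, Finset.sum_insert ha, lv_add, ih]
      congr 1
      rw [lv, Finsupp.sum_single_index (by simp), one_mul]
  rw [h1, lv_add, h2, levM]
  congr 1
  rw [lv, Finsupp.sum_smul_index' (by simp), Finsupp.sum, Finsupp.sum, Finset.mul_sum]
  refine Finset.sum_congr rfl fun v _ => ?_
  rw [smul_eq_mul]
  ring

/-- supports of the symbols -/
theorem symb_supp (z : CobP p n) (l : List Ex) (h : symb n z l ≠ 0) :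
    l.length = n ∧ Red p l := ⟨(symb_ne_zero h).1, (symb_ne_zero h).2.1⟩

/-- word cochains supported in low level are killed by `Θ` -/
theorem thW_eq_zero_of_lev {f : List Ex → ZMod p} (hf : ∀ l, f l ≠ 0 → l.length = n ∧ Red p l)
    (hl : ∀ l, f l ≠ 0 → lev μ l < m) {r : EI (ℕ × ℕ)} (hr : m ≤ levM p μ r) :
    thW p n r f = 0 := by
  by_contra h
  have h1 := (thW_ne_zero (𝒜 := {A | lv μ A < m}) hp.out.two_le (fun l h => ⟨(hf l h).1, by
    rw [Set.mem_ofPred_eq, ← lev_eq]; exact hl l h, (hf l h).2⟩) h).2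
  rw [Set.mem_ofPred_eq, ← levM_eq] at h1
  omega

/-- (T0) -/
theorem Th_of_mem {z : CobP p n} (hz : z ∈ Fil μ n m) {r : EI (ℕ × ℕ)} (hr : m ≤ levM p μ r) :
    H632.Th n r z = 0 := by
  refine thW_eq_zero_of_lev (symb_supp z) (fun l hl => ?_) hr
  by_contra h
  exact hl (hz l (not_lt.1 h))

variable (p) in
/-- the leading part of the differential -/
def SymbDP : Prop := ∀ (μ : ℕ × ℕ → ℕ) (n m : ℕ) (z : CobP p n) (l : List Ex), IsMu p μ →
  z ∈ Fil μ n (m + 1) → m ≤ lev μ l → l.length = n + 1 → Red p l →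
    symb (n + 1) (dP n z) l = dK (symb n z) l

/-- supports of `dK f` -/
theorem dK_ne_zero {f : List Ex → ZMod p} {l : List Ex} (h : dK f l ≠ 0) :
    ∃ t, f t ≠ 0 ∧ t.length + 1 = l.length ∧ t.sum = l.sum ∧ (Red p t → Red p l) := by
  let _ : LinearOrder (ℕ × ℕ) := lo (ℕ × ℕ)
  have hp0 := hp.out.pos
  cases l with
  | nil => exact absurd rfl h
  | cons w l =>
    rw [dK, dC_eq] at h
    by_cases h1 : bb (w :: l) f = 0
    · rw [h1, sub_zero] at h
      split_ifs at h with hw
      · exact ⟨l, h, by simp, by simp [hw], fun hr => by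
          intro e he v
          rcases List.mem_cons.1 he with rfl | he
          · rw [hw]; exact hp0
          · exact hr e he v⟩
      · exact absurd rfl h
    · exact bb_ne_zero hp0 h1

theorem dC_sub (l : List Ex) (f g : List Ex → ZMod p) :
    dC l (fun t => f t - g t) = dC l f - dC l g := by
  let _ : LinearOrder (ℕ × ℕ) := lo (ℕ × ℕ)
  rw [dC_eq, dC_eq, dC_eq, bb_sub]

theorem dK_sub (l : List Ex) (f g : List Ex → ZMod p) :
    dK (fun t => f t - g t) l = dK f l - dK g l := by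
  cases l with
  | nil => simp [dK]
  | cons w l =>
    rw [dK, dK, dK, dC_sub]
    split_ifs <;> ring

/-- the differential preserves the filtration (P1) -/
theorem dP_mem_Fil (hS : SymbDP p) (hμ : IsMu p μ) {z : CobP p n} (hz : z ∈ Fil μ n (m + 1)) :
    dP n z ∈ Fil μ (n + 1) (m + 1) := by
  intro l hl
  by_contra h
  obtain ⟨h1, h2⟩ := symb_supp _ _ h
  rw [hS μ n m z l hμ hz (by omega) h1 h2] at h
  obtain ⟨t, ht, -, hs, -⟩ := dK_ne_zero h
  apply ht
  apply hz t
  rw [lev_eq, hs, ← lev_eq]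
  exact hl

/-- (T1) -/
theorem Th_dP (hS : SymbDP p) (hμ : IsMu p μ) {z : CobP p n} (hz : z ∈ Fil μ n (m + 1))
    {r : EI (ℕ × ℕ)} (hr : m ≤ levM p μ r) : H632.Th (n + 1) r (dP n z) = 0 := by
  have h1 : thW p (n + 1) r (fun l => symb (n + 1) (dP n z) l - dK (symb n z) l) = 0 := by
    refine thW_eq_zero_of_lev (μ := μ) (m := m) (fun l hl => ?_) (fun l hl => ?_) hr
    · by_cases h2 : symb (n + 1) (dP n z) l = 0
      · rw [h2, zero_sub, neg_ne_zero] at hl
        obtain ⟨t, ht, h3, -, h4⟩ := dK_ne_zero hl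
        obtain ⟨h5, h6⟩ := symb_supp _ _ ht
        exact ⟨by omega, h4 h6⟩
      · exact symb_supp _ _ h2
    · by_contra h2
      rw [not_lt] at h2
      have h3 : l.length = n + 1 ∧ Red p l := by
        by_cases h4 : symb (n + 1) (dP n z) l = 0
        · rw [h4, zero_sub, neg_ne_zero] at hl
          obtain ⟨t, ht, h3, -, h4⟩ := dK_ne_zero hl
          obtain ⟨h5, h6⟩ := symb_supp _ _ ht
          exact ⟨by omega, h4 h6⟩
        · exact symb_supp _ _ h4
      apply hl
      rw [hS μ n m z l hμ hz h2 h3.1 h3.2, sub_self]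
  rw [thW_sub, thW_dK hp.out.two_le n (fun l h => (symb_supp z l h).2), sub_zero] at h1
  exact h1

/-- (T2) -/
theorem exists_sub_mem (hS : SymbDP p) (hμ : IsMu p μ) {z : CobP p (n + 1)}
    (hz : z ∈ Fil μ (n + 1) (m + 1)) (hW : z ∈ WtP p (n + 1) W)
    (hd : dP (n + 1) z ∈ Fil μ (n + 2) m)
    (hΘ : ∀ r : EI (ℕ × ℕ), degM r = n + 1 → levM p (wD p) r = W → levM p μ r = m →
      H632.Th (n + 1) r z = 0) :
    ∃ y ∈ Fil μ n (m + 1), y ∈ WtP p n W ∧ z - dP n y ∈ Fil μ (n + 1) m := by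
  set f₀ := symb (n + 1) z with hf₀
  set f : List Ex → ZMod p := fun l => if lev μ l = m then f₀ l else 0 with hf
  have hfsupp : ∀ l, f l ≠ 0 → f₀ l ≠ 0 ∧ lev μ l = m := by
    intro l hl
    simp only [hf] at hl
    split_ifs at hl with h
    · exact ⟨hl, h⟩
    · exact absurd rfl hl
  have hlow : ∀ l, f₀ l - f l ≠ 0 → (l.length = n + 1 ∧ Red p l) ∧ lev μ l < m := by
    intro l hl
    have h1 : lev μ l ≠ m := by
      intro h
      apply hl
      simp only [hf]
      rw [if_pos h, sub_self]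
    have h2 : f₀ l ≠ 0 := by
      intro h
      apply hl
      simp only [hf]
      rw [if_neg h1, h, sub_zero]
    refine ⟨symb_supp _ _ h2, ?_⟩
    by_contra h3
    exact h2 (hz l (by omega))
  have hsup : ∀ l, f l ≠ 0 → l.length = n + 1 ∧
      l.sum ∈ {A : Ex | lv μ A = m ∧ lv (wD p) A = W} ∧ Red p l := by
    intro l hl
    obtain ⟨h1, h2⟩ := hfsupp l hl
    obtain ⟨h3, h4⟩ := symb_supp _ _ h1
    refine ⟨h3, ⟨?_, ?_⟩, h4⟩
    · rw [← lev_eq, h2]
    · rw [← lev_eq]
      exact mem_WtP_iff.1 hW l h1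
  have hdf : ∀ l, dK f l = 0 := by
    intro l
    by_contra h
    obtain ⟨t, ht, hlen, hs, hr⟩ := dK_ne_zero h
    obtain ⟨h1, h2, h3⟩ := hsup t ht
    have hlm : lev μ l = m := by
      rw [lev_eq, ← hs]
      exact h2.1
    have h4 : dK (fun t => f₀ t - f t) l = 0 := by
      by_contra h5
      obtain ⟨t', ht', -, hs', -⟩ := dK_ne_zero h5
      have h6 := (hlow t' ht').2
      rw [lev_eq, hs', ← lev_eq] at h6
      omega
    rw [dK_sub, sub_eq_zero] at h4
    rw [← h4, ← hS μ (n + 1) m z l hμ hz hlm.ge (by omega) (hr h3)] at h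
    exact h (hd l hlm.ge)
  obtain ⟨g, hg, hgf⟩ := exists_dK_eq (p := p) hp.out.two_le hsup hdf (fun r h1 h2 => by
    have h3 : thW p (n + 1) r (fun l => f₀ l - f l) = 0 :=
      thW_eq_zero_of_lev (μ := μ) (m := m) (fun l hl => (hlow l hl).1)
        (fun l hl => (hlow l hl).2) (by rw [levM_eq]; exact h2.1.ge)
    rw [thW_sub, sub_eq_zero] at h3
    rw [← h3]
    exact hΘ r h1 (by rw [levM_eq]; exact h2.2) (by rw [levM_eq]; exact h2.1))
  obtain ⟨y, hy, hyg⟩ := exists_symb_WtP (p := p) (n := n) (W := W) (f := g)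
    (fun l hl => ⟨(hg l hl).1, (hg l hl).2.2, by rw [lev_eq]; exact (hg l hl).2.1.2⟩)
  have hyF : y ∈ Fil μ n (m + 1) := by
    intro l hl
    by_contra h
    rw [hyg] at h
    have := (hg l h).2.1.1
    rw [← lev_eq] at this
    omega
  refine ⟨y, hyF, hy, ?_⟩
  intro l hl
  rw [symb_sub]
  by_cases h : l.length = n + 1 ∧ Red p l
  · rcases hl.lt_or_eq with h1 | h1
    · rw [hz l (by omega), dP_mem_Fil hS hμ hyF l (by omega), sub_self]
    · rw [hS μ n m y l hμ hyF hl h.1 h.2, hyg, hgf]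
      simp only [hf]
      rw [if_pos h1.symm, sub_self]
  · have h1 : ∀ z : CobP p (n + 1), symb (n + 1) z l = 0 := by
      intro z
      by_contra h2
      exact h (symb_supp _ _ h2)
    rw [h1, h1, sub_self]

end Vale.Agent.P257.H314.Eng

end
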