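import Vale.Agent.P257.H314.E0.Words

/-!
# P257 (helper314): the `E₀`-level: the resolution
-/

set_option linter.unusedSectionVars false

namespace Vale.Agent.P257.H314.E0

open Finset

universe uV uk

variable {V : Type uV} [LinearOrder V] {k : Type uk} [CommRing k] (p : ℕ)

/-- functions on words with values in the functions of `r` -/
abbrev Fn (V : Type uV) [LinearOrder V] (k : Type uk) := List (V →₀ ℕ) → (V →₀ ℕ) → k

/-- the `v`-component of the differential of the resolution -/
noncomputable def tt (v : V) (F : Fn V k) : Fn V k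
  | [], _ => 0
  | y :: l, r => if r v = 0 then 0 else
      sg v r • F ((y + Finsupp.single v (cc p (r v))) :: l) (r - Finsupp.single v 1)

/-- the `v`-component of the contraction -/
noncomputable def ss (v : V) (F : Fn V k) : Fn V k
  | [], _ => 0
  | y :: l, r => if cc p (r v + 1) ≤ y v ∧ y v < p then
      sg v r • F ((y - Finsupp.single v (cc p (r v + 1))) :: l) (r + Finsupp.single v 1) else 0

variable {p}

theorem tt_nil (v : V) (F : Fn V k) (r : V →₀ ℕ) : tt p v F [] r = 0 := rfl

theorem ss_nil (v : V) (F : Fn V k) (r : V →₀ ℕ) : ss p v F [] r = 0 := rfl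

theorem tt_of_eq_zero {v : V} {F : Fn V k} {y : V →₀ ℕ} {l : List (V →₀ ℕ)} {r : V →₀ ℕ}
    (h : r v = 0) : tt p v F (y :: l) r = 0 := by
  rw [tt, if_pos h]

theorem tt_add {v : V} {F : Fn V k} {y : V →₀ ℕ} {l : List (V →₀ ℕ)} {r : V →₀ ℕ} :
    tt p v F (y :: l) (r + Finsupp.single v 1) =
      sg v r • F ((y + Finsupp.single v (cc p (r v + 1))) :: l) r := by
  rw [tt, if_neg (by simp), sg_add_single, if_neg (lt_irrefl v)]
  simp

theorem exists_eq_add {v : V} {r : V →₀ ℕ} (h : r v ≠ 0) :
    ∃ r', r = r' + Finsupp.single v 1 :=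
  ⟨r - Finsupp.single v 1, (tsub_add_cancel_of_le (by
    rw [Finsupp.single_le_iff]
    omega)).symm⟩

theorem exists_eq_add' {v : V} {y : V →₀ ℕ} {c : ℕ} (h : c ≤ y v) :
    ∃ y', y = y' + Finsupp.single v c :=
  ⟨y - Finsupp.single v c, (tsub_add_cancel_of_le (by
    rwa [Finsupp.single_le_iff])).symm⟩

theorem ss_of_not {v : V} {F : Fn V k} {y : V →₀ ℕ} {l : List (V →₀ ℕ)} {r : V →₀ ℕ}
    (h : ¬ (cc p (r v + 1) ≤ y v ∧ y v < p)) : ss p v F (y :: l) r = 0 := by
  rw [ss, if_neg h]

theorem ss_add {v : V} {F : Fn V k} {y : V →₀ ℕ} {l : List (V →₀ ℕ)} {r : V →₀ ℕ}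
    (h : (y + Finsupp.single v (cc p (r v + 1))) v < p) :
    ss p v F ((y + Finsupp.single v (cc p (r v + 1))) :: l) r =
      sg v r • F (y :: l) (r + Finsupp.single v 1) := by
  rw [ss, if_pos ⟨by simp, h⟩]
  simp

/-- the total degree of `(y, r)` -/
noncomputable def be (p : ℕ) (y r : V →₀ ℕ) : V →₀ ℕ := y + dg p r

theorem dg_add_single (hp : 2 ≤ p) (v : V) (r : V →₀ ℕ) :
    dg p (r + Finsupp.single v 1) = dg p r + Finsupp.single v (cc p (r v + 1)) := by
  ext u
  rw [Finsupp.add_apply, dg_apply, dg_apply, Finsupp.add_apply]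
  by_cases h : u = v
  · subst h
    rw [Finsupp.single_eq_same, Finsupp.single_eq_same, dg1_succ hp]
  · rw [Finsupp.single_eq_of_ne h, Finsupp.single_eq_of_ne h, add_zero, add_zero]

theorem be_tt (hp : 2 ≤ p) (v : V) (y r : V →₀ ℕ) :
    be p (y + Finsupp.single v (cc p (r v + 1))) r = be p y (r + Finsupp.single v 1) := by
  rw [be, be, dg_add_single hp]
  abel

theorem be_eq_zero (hp : 2 ≤ p) {y r : V →₀ ℕ} (h : be p y r = 0) : y = 0 ∧ r = 0 := by
  rw [be, add_eq_zero] at h
  refine ⟨h.1, ?_⟩
  ext v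
  have h1 := DFunLike.congr_fun h.2 v
  rw [dg_apply, Finsupp.coe_zero, Pi.zero_apply, dg1] at h1
  rw [Finsupp.coe_zero, Pi.zero_apply]
  rcases Nat.add_eq_zero_iff.1 h1 with ⟨h2, h3⟩
  rcases Nat.mul_eq_zero.1 h3 with h4 | h4 <;> omega

/-- reducedness -/
def Red (p : ℕ) (F : Fn V k) : Prop := ∀ l r, F l r ≠ 0 → RedL p l

theorem Red.eq_zero {F : Fn V k} (hF : Red p F) {l : List (V →₀ ℕ)} {r : V →₀ ℕ}
    (h : ¬ RedL p l) : F l r = 0 := by
  by_contra h1
  exact h (hF l r h1)

theorem Red.eq_zero_head {F : Fn V k} (hF : Red p F) {y : V →₀ ℕ} {l : List (V →₀ ℕ)}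
    {r : V →₀ ℕ} {v : V} (h : p ≤ y v) : F (y :: l) r = 0 := by
  apply hF.eq_zero
  rw [redL_cons]
  intro h1
  have := h1.1 v
  omega

/-- `∂_v² = 0` -/
theorem tt_tt_self (hp : 2 ≤ p) (v : V) {F : Fn V k} (hF : Red p F) (l : List (V →₀ ℕ))
    (r : V →₀ ℕ) : tt p v (tt p v F) l r = 0 := by
  cases l with
  | nil => rfl
  | cons y l =>
    by_cases h : r v = 0
    · exact tt_of_eq_zero h
    obtain ⟨r, rfl⟩ := exists_eq_add h
    rw [tt_add]
    by_cases h : r v = 0
    · rw [tt_of_eq_zero h, smul_zero]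
    obtain ⟨r, rfl⟩ := exists_eq_add h
    rw [tt_add, hF.eq_zero_head (v := v), smul_zero, smul_zero]
    simp only [Finsupp.add_apply, Finsupp.single_eq_same]
    have := cc_add hp (r v + 1)
    omega

theorem tt_tt (v w : V) (hvw : v ≠ w) (F : Fn V k) (l : List (V →₀ ℕ))
    (r : V →₀ ℕ) : tt p v (tt p w F) l r = - tt p w (tt p v F) l r := by
  cases l with
  | nil => simp [tt_nil]
  | cons y l =>
    by_cases h : r v = 0
    · rw [tt_of_eq_zero h]
      by_cases h' : r w = 0
      · rw [tt_of_eq_zero h', neg_zero]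
      · obtain ⟨r, rfl⟩ := exists_eq_add h'
        rw [tt_add, tt_of_eq_zero, smul_zero, neg_zero]
        rw [Finsupp.add_apply, Finsupp.single_eq_of_ne hvw, add_zero] at h
        exact h
    obtain ⟨r, rfl⟩ := exists_eq_add h
    by_cases h' : r w = 0
    · have h2 : (r + Finsupp.single v 1 : V →₀ ℕ) w = 0 := by
        rw [Finsupp.add_apply, Finsupp.single_eq_of_ne hvw.symm, h', add_zero]
      rw [tt_add, tt_of_eq_zero h', tt_of_eq_zero h2, smul_zero, neg_zero]
    obtain ⟨r, rfl⟩ := exists_eq_add h'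
    have e1 : (r + Finsupp.single w 1 : V →₀ ℕ) v = r v := by
      rw [Finsupp.add_apply, Finsupp.single_eq_of_ne hvw, add_zero]
    have e2 : (r + Finsupp.single v 1 : V →₀ ℕ) w = r w := by
      rw [Finsupp.add_apply, Finsupp.single_eq_of_ne hvw.symm, add_zero]
    rw [tt_add, tt_add, show r + Finsupp.single w 1 + Finsupp.single v 1 =
      (r + Finsupp.single v 1) + Finsupp.single w 1 by abel, tt_add, tt_add, e1, e2,
      smul_smul, smul_smul, ← neg_smul, sg_add_single, sg_add_single,
      show y + Finsupp.single v (cc p (r v + 1)) + Finsupp.single w (cc p (r w + 1)) =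
        y + Finsupp.single w (cc p (r w + 1)) + Finsupp.single v (cc p (r v + 1)) by abel]
    congr 1
    rcases lt_or_gt_of_ne hvw with h3 | h3
    · rw [if_neg (not_lt.2 h3.le), if_pos h3]
      ring
    · rw [if_pos h3, if_neg (not_lt.2 h3.le)]
      ring

/-- `S_v ∂_w + ∂_w S_v = 0` -/
theorem ss_tt (v w : V) (hvw : v ≠ w) (F : Fn V k) (l : List (V →₀ ℕ))
    (r : V →₀ ℕ) : ss p v (tt p w F) l r = - tt p w (ss p v F) l r := by
  cases l with
  | nil => simp [tt_nil, ss_nil]
  | cons y l =>
    by_cases h' : r w = 0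
    · rw [tt_of_eq_zero h', neg_zero, ss]
      split_ifs with h
      · rw [tt_of_eq_zero, smul_zero]
        rw [Finsupp.add_apply, Finsupp.single_eq_of_ne hvw.symm, h', add_zero]
      · rfl
    obtain ⟨r, rfl⟩ := exists_eq_add h'
    have e1 : (r + Finsupp.single w 1 : V →₀ ℕ) v = r v := by
      rw [Finsupp.add_apply, Finsupp.single_eq_of_ne hvw, add_zero]
    have e2 : (r + Finsupp.single v 1 : V →₀ ℕ) w = r w := by
      rw [Finsupp.add_apply, Finsupp.single_eq_of_ne hvw.symm, add_zero]
    by_cases h : cc p (r v + 1) ≤ y v ∧ y v < p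
    · obtain ⟨y, rfl⟩ := exists_eq_add' h.1
      have h2 := h.2
      rw [← e1, ss_add (by rw [e1]; exact h2), e1,
        show r + Finsupp.single w 1 + Finsupp.single v 1 =
          (r + Finsupp.single v 1) + Finsupp.single w 1 by abel, tt_add, tt_add, e2,
        show y + Finsupp.single v (cc p (r v + 1)) + Finsupp.single w (cc p (r w + 1)) =
          y + Finsupp.single w (cc p (r w + 1)) + Finsupp.single v (cc p (r v + 1)) by abel,
        ss_add, smul_smul, smul_smul, ← neg_smul, sg_add_single, sg_add_single]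
      · congr 1
        rcases lt_or_gt_of_ne hvw with h3 | h3
        · rw [if_neg (not_lt.2 h3.le), if_pos h3]
          ring
        · rw [if_pos h3, if_neg (not_lt.2 h3.le)]
          ring
      · rw [Finsupp.add_apply] at h2 ⊢
        rwa [Finsupp.add_apply, Finsupp.single_eq_of_ne hvw, add_zero]
    · rw [ss_of_not (by rwa [e1]), tt_add, ss_of_not, smul_zero, neg_zero]
      rwa [Finsupp.add_apply, Finsupp.single_eq_of_ne hvw, add_zero]

/-- `S_v ∂_v + ∂_v S_v = 1` -/
theorem ss_tt_self (hp : 2 ≤ p) (v : V) {F : Fn V k} (hF : Red p F) {y : V →₀ ℕ}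
    {l : List (V →₀ ℕ)} {r : V →₀ ℕ} (h0 : y v ≠ 0 ∨ r v ≠ 0) :
    ss p v (tt p v F) (y :: l) r + tt p v (ss p v F) (y :: l) r = F (y :: l) r := by
  by_cases hy : p ≤ y v
  · rw [ss_of_not (by omega), hF.eq_zero_head hy, zero_add]
    by_cases h : r v = 0
    · exact tt_of_eq_zero h
    · obtain ⟨r, rfl⟩ := exists_eq_add h
      rw [tt_add, ss_of_not, smul_zero]
      rw [Finsupp.add_apply, Finsupp.single_eq_same]
      omega
  push Not at hy
  have hc := cc_add hp (r v)
  by_cases h : cc p (r v + 1) ≤ y v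
  · have h1 : tt p v (ss p v F) (y :: l) r = 0 := by
      by_cases h : r v = 0
      · exact tt_of_eq_zero h
      · obtain ⟨r, rfl⟩ := exists_eq_add h
        rw [tt_add, ss_of_not, smul_zero]
        simp only [Finsupp.add_apply, Finsupp.single_eq_same] at *
        omega
    obtain ⟨y, rfl⟩ := exists_eq_add' h
    rw [h1, add_zero, ss_add hy, tt_add, smul_smul, sg_mul_self, one_smul]
  · rw [ss_of_not (by omega), zero_add]
    have hr : r v ≠ 0 := by
      rintro hr
      rcases h0 with h0 | h0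
      · apply h
        rw [hr]
        have : cc p (0 + 1) = 1 := rfl
        omega
      · exact h0 hr
    obtain ⟨r, rfl⟩ := exists_eq_add hr
    rw [tt_add, ss_add, smul_smul, sg_mul_self, one_smul]
    simp only [Finsupp.add_apply, Finsupp.single_eq_same] at *
    omega

/-! ### The differential of the resolution -/

variable (p) in
/-- the differential of the resolution -/
noncomputable def del (F : Fn V k) : Fn V k := fun l r => ∑ v ∈ r.support, tt p v F l r

variable (p) in
/-- the contraction -/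
noncomputable def con (F : Fn V k) : Fn V k
  | [], _ => 0
  | y :: l, r => if h : (be p y r).support.Nonempty then
      ss p ((be p y r).support.min' h) F (y :: l) r else 0

theorem del_eq {F : Fn V k} {l : List (V →₀ ℕ)} {r : V →₀ ℕ} {s : Finset V}
    (hs : r.support ⊆ s) : del p F l r = ∑ v ∈ s, tt p v F l r := by
  refine Finset.sum_subset hs fun v _ hv => ?_
  rw [Finsupp.notMem_support_iff] at hv
  cases l with
  | nil => rfl
  | cons y l => exact tt_of_eq_zero hv

theorem del_nil (F : Fn V k) (r : V →₀ ℕ) : del p F [] r = 0 :=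
  Finset.sum_eq_zero fun _ _ => rfl

theorem tt_sum {ι : Type*} (v : V) (s : Finset ι) (F : ι → Fn V k) (l : List (V →₀ ℕ))
    (r : V →₀ ℕ) : tt p v (fun l r => ∑ i ∈ s, F i l r) l r = ∑ i ∈ s, tt p v (F i) l r := by
  cases l with
  | nil => simp [tt_nil]
  | cons y l =>
    simp only [tt]
    split_ifs with h
    · simp
    · rw [Finset.smul_sum]

theorem tt_congr {v : V} {F G : Fn V k} {y : V →₀ ℕ} {l : List (V →₀ ℕ)} {r : V →₀ ℕ}
    (h : r v ≠ 0 → F ((y + Finsupp.single v (cc p (r v))) :: l) (r - Finsupp.single v 1) =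
      G ((y + Finsupp.single v (cc p (r v))) :: l) (r - Finsupp.single v 1)) :
    tt p v F (y :: l) r = tt p v G (y :: l) r := by
  simp only [tt]
  split_ifs with h1
  · rfl
  · rw [h h1]

theorem tt_del (v : V) (F : Fn V k) (l : List (V →₀ ℕ)) (r : V →₀ ℕ) :
    tt p v (del p F) l r = ∑ w ∈ r.support, tt p v (tt p w F) l r := by
  rw [← tt_sum]
  cases l with
  | nil => rfl
  | cons y l =>
    refine tt_congr fun _ => del_eq fun w hw => ?_
    rw [Finsupp.mem_support_iff] at hw ⊢
    intro h
    apply hw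
    rw [Finsupp.coe_tsub, Pi.sub_apply, h]
    simp

/-- `∂ ∘ ∂ = 0` -/
theorem del_del (hp : 2 ≤ p) {F : Fn V k} (hF : Red p F) (l : List (V →₀ ℕ)) (r : V →₀ ℕ) :
    del p (del p F) l r = 0 := by
  rw [del]
  simp only [tt_del]
  rw [← Finset.sum_product' (f := fun v w => tt p v (tt p w F) l r)]
  refine Finset.sum_involution (fun vw _ => (vw.2, vw.1)) ?_ ?_ ?_ ?_
  · rintro ⟨v, w⟩ -
    by_cases h : v = w
    · subst h
      simp [tt_tt_self hp v hF]
    · dsimp only
      rw [tt_tt v w h]
      simp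
  · rintro ⟨v, w⟩ - h1 h2
    have : w = v := (Prod.ext_iff.1 h2).1
    subst this
    exact h1 (tt_tt_self hp w hF l r)
  · rintro ⟨v, w⟩ h
    rw [Finset.mem_product] at h ⊢
    exact ⟨h.2, h.1⟩
  · rintro ⟨v, w⟩ _
    rfl

/-! ### The bar differential on functions with values -/

/-- the bar differential -/
noncomputable def bF (F : Fn V k) : Fn V k := fun l r => bb l (fun t => F t r)

theorem tt_bF (hp : 2 ≤ p) (v : V) (F : Fn V k) (l : List (V →₀ ℕ)) (r : V →₀ ℕ) :
    tt p v (bF F) l r = bF (tt p v F) l r := by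
  cases l with
  | nil => rfl
  | cons y l =>
    by_cases h : r v = 0
    · rw [tt_of_eq_zero h, bF]
      have : (fun t => tt p v F t r) = (0 : List (V →₀ ℕ) → k) := by
        funext t
        cases t with
        | nil => rfl
        | cons z t => exact tt_of_eq_zero h
      rw [this, bb_zero]
    · obtain ⟨r, rfl⟩ := exists_eq_add h
      rw [tt_add]
      cases l with
      | nil =>
        rw [bF, bF, bb_one, bb_one, if_neg, smul_zero, tt_nil, ite_self]
        intro h0
        have h1 := DFunLike.congr_fun h0 v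
        rw [Finsupp.add_apply, Finsupp.single_eq_same, Finsupp.coe_zero, Pi.zero_apply] at h1
        have := cc_pos hp (r v + 1)
        omega
      | cons w l =>
        rw [bF, bF, bb_cons, bb_cons, tt_add, smul_sub]
        congr 1
        · rw [show y + Finsupp.single v (cc p (r v + 1)) + w =
            y + w + Finsupp.single v (cc p (r v + 1)) by abel]
        · have e : (fun t => tt p v F (y :: t) (r + Finsupp.single v 1)) =
              fun t => (DistribSMul.toAddMonoidHom k (sg v r))
                (F ((y + Finsupp.single v (cc p (r v + 1))) :: t) r) := by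
            funext t
            rw [tt_add]
            rfl
          rw [e, bb_map]
          rfl

theorem del_bF (hp : 2 ≤ p) (F : Fn V k) (l : List (V →₀ ℕ)) (r : V →₀ ℕ) :
    del p (bF F) l r = bF (del p F) l r := by
  rw [del, bF]
  simp only [tt_bF hp]
  exact (bb_sum _ _ _).symm

/-- evaluation of the coefficient at `0` -/
def hh (F : Fn V k) : Fn V k := fun l r => F (0 :: l) r

theorem hh_bF {F : Fn V k} {l : List (V →₀ ℕ)} (hl : l ≠ []) (r : V →₀ ℕ) :
    hh (bF F) l r = F l r - bF (hh F) l r := by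
  cases l with
  | nil => exact absurd rfl hl
  | cons y l =>
    rw [hh, bF, bb_cons, zero_add]
    rfl

end Vale.Agent.P257.H314.E0
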