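import Vale.Agent.P257.H314.E0.Res

/-!
# P257 (helper314): the `E₀`-level: the functionals `Θ`

* `theta_dd` : `Θ ∘ d = 0`;
* `exists_dd_eq` : a cocycle killed by all `Θ_r` is a coboundary.
-/

set_option linter.unusedSectionVars false

namespace Vale.Agent.P257.H314.E0

open Finset

universe uV uk

variable {V : Type uV} [LinearOrder V] {k : Type uk} [CommRing k] {p : ℕ}

/-! ### Exactness of the resolution -/

theorem con_eq {F : Fn V k} {y : V →₀ ℕ} {l : List (V →₀ ℕ)} {r β : V →₀ ℕ}
    (h : be p y r = β) (hβ : β.support.Nonempty) :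
    con p F (y :: l) r = ss p (β.support.min' hβ) F (y :: l) r := by
  subst h
  exact dif_pos hβ

theorem con_nil (F : Fn V k) (r : V →₀ ℕ) : con p F [] r = 0 := rfl

theorem tt_con (hp : 2 ≤ p) {F : Fn V k} {y : V →₀ ℕ} {l : List (V →₀ ℕ)} {r β : V →₀ ℕ}
    (h : be p y r = β) (hβ : β.support.Nonempty) (w : V) :
    tt p w (con p F) (y :: l) r = tt p w (ss p (β.support.min' hβ) F) (y :: l) r := by
  refine tt_congr fun hw => con_eq ?_ hβ
  obtain ⟨r, rfl⟩ := exists_eq_add hw
  rw [← h, ← be_tt hp]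
  simp

theorem ss_del {v : V} (F : Fn V k) (y : V →₀ ℕ) (l : List (V →₀ ℕ))
    (r : V →₀ ℕ) : ss p v (del p F) (y :: l) r =
      ∑ w ∈ insert v r.support, ss p v (tt p w F) (y :: l) r := by
  simp only [ss]
  split_ifs with h
  · rw [del_eq (s := insert v r.support), Finset.smul_sum]
    intro u hu
    rw [Finsupp.mem_support_iff, Finsupp.add_apply] at hu
    rw [Finset.mem_insert, Finsupp.mem_support_iff]
    by_cases h1 : u = v
    · exact Or.inl h1
    · rw [Finsupp.single_eq_of_ne h1, add_zero] at hu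
      exact Or.inr hu
  · simp

theorem con_del (hp : 2 ≤ p) {F : Fn V k} (hF : Red p F) {y : V →₀ ℕ} {l : List (V →₀ ℕ)}
    {r : V →₀ ℕ} (h : be p y r ≠ 0) :
    con p (del p F) (y :: l) r + del p (con p F) (y :: l) r = F (y :: l) r := by
  have hβ : (be p y r).support.Nonempty := Finsupp.support_nonempty_iff.2 h
  set v := (be p y r).support.min' hβ with hv
  have hmem : v ∈ (be p y r).support := Finset.min'_mem _ _
  rw [con_eq rfl hβ, ← hv, ss_del, del_eq (s := insert v r.support) (Finset.subset_insert _ _)]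
  simp only [tt_con hp (β := be p y r) rfl hβ, ← hv]
  rw [← Finset.sum_add_distrib, Finset.sum_eq_single v]
  · refine ss_tt_self hp v hF ?_
    rw [Finsupp.mem_support_iff, be, Finsupp.add_apply, dg_apply] at hmem
    by_contra h1
    push Not at h1
    apply hmem
    rw [h1.1, h1.2]
    simp [dg1]
  · intro w _ hw
    rw [ss_tt v w hw.symm]
    simp
  · intro h1
    exact absurd (Finset.mem_insert_self _ _) h1

/-! ### Supports -/

/-- supports -/
def Sup (p : ℕ) (n b : ℕ) (𝒜 : Set (V →₀ ℕ)) (F : Fn V k) : Prop :=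
  ∀ l r, F l r ≠ 0 → l.length = n ∧ r.degree = b ∧ l.sum + dg p r ∈ 𝒜 ∧ RedL p l

theorem Sup.red {n b : ℕ} {𝒜 : Set (V →₀ ℕ)} {F : Fn V k} (h : Sup p n b 𝒜 F) : Red p F :=
  fun l r h1 => (h l r h1).2.2.2

theorem Sup.eq_zero_of_length {n b : ℕ} {𝒜 : Set (V →₀ ℕ)} {F : Fn V k} (h : Sup p n b 𝒜 F)
    {l : List (V →₀ ℕ)} (hl : l.length ≠ n) (r : V →₀ ℕ) : F l r = 0 := by
  by_contra h1
  exact hl (h l r h1).1

theorem Sup.eq_zero_of_degree {n b : ℕ} {𝒜 : Set (V →₀ ℕ)} {F : Fn V k} (h : Sup p n b 𝒜 F)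
    (l : List (V →₀ ℕ)) {r : V →₀ ℕ} (hr : r.degree ≠ b) : F l r = 0 := by
  by_contra h1
  exact hr (h l r h1).2.1

theorem Sup.sub {n b : ℕ} {𝒜 : Set (V →₀ ℕ)} {F G : Fn V k} (hF : Sup p n b 𝒜 F)
    (hG : Sup p n b 𝒜 G) : Sup p n b 𝒜 (fun l r => F l r - G l r) := by
  intro l r h
  change F l r - G l r ≠ 0 at h
  by_cases h1 : F l r = 0
  · rw [h1, zero_sub, neg_ne_zero] at h
    exact hG l r h
  · exact hF l r h1

theorem Sup.bF (hp : 2 ≤ p) {n b : ℕ} {𝒜 : Set (V →₀ ℕ)} {F : Fn V k} (h : Sup p n b 𝒜 F) :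
    Sup p (n + 1) b 𝒜 (bF F) := by
  intro l r h1
  obtain ⟨t, ht, hl, hs, hr⟩ := bb_ne_zero (p := p) (by omega) h1
  obtain ⟨h2, h3, h4, h5⟩ := h t r ht
  exact ⟨by omega, h3, hs ▸ h4, hr h5⟩

theorem Sup.hh {n b : ℕ} {𝒜 : Set (V →₀ ℕ)} {F : Fn V k} (h : Sup p (n + 1) b 𝒜 F) :
    Sup p n b 𝒜 (hh F) := by
  intro l r h1
  obtain ⟨h2, h3, h4, h5⟩ := h (0 :: l) r h1
  rw [List.length_cons] at h2
  rw [List.sum_cons, zero_add] at h4
  rw [redL_cons] at h5
  exact ⟨by omega, h3, h4, h5.2⟩

theorem Sup.del (hp : 2 ≤ p) {n b : ℕ} {𝒜 : Set (V →₀ ℕ)} {F : Fn V k} (h : Sup p n b 𝒜 F) :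
    Sup p n (b + 1) 𝒜 (del p F) := by
  intro l r h1
  obtain ⟨v, hv, h2⟩ := Finset.exists_ne_zero_of_sum_ne_zero h1
  cases l with
  | nil => exact absurd rfl h2
  | cons y l =>
    rw [Finsupp.mem_support_iff] at hv
    obtain ⟨r, rfl⟩ := exists_eq_add hv
    rw [tt_add] at h2
    obtain ⟨h3, h4, h5, h6⟩ := h _ _ (fun h0 => h2 (by rw [h0, smul_zero]))
    refine ⟨h3, ?_, ?_, ?_⟩
    · rw [map_add, h4]
      simp
    · rw [dg_add_single hp]
      rw [List.sum_cons] at h5 ⊢
      convert h5 using 1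
      abel
    · rw [redL_cons] at h6 ⊢
      refine ⟨fun u => ?_, h6.2⟩
      have := h6.1 u
      rw [Finsupp.add_apply] at this
      omega

theorem Sup.con (hp : 2 ≤ p) {n b : ℕ} {𝒜 : Set (V →₀ ℕ)} {F : Fn V k}
    (h : Sup p n (b + 1) 𝒜 F) : Sup p n b 𝒜 (con p F) := by
  intro l r h1
  cases l with
  | nil => exact absurd rfl h1
  | cons y l =>
    have hβ : (be p y r).support.Nonempty := by
      by_contra h2
      apply h1
      rw [E0.con, dif_neg h2]
    rw [con_eq rfl hβ] at h1
    set v := (be p y r).support.min' hβ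
    have hc : cc p (r v + 1) ≤ y v ∧ y v < p := by
      by_contra h2
      exact h1 (ss_of_not h2)
    obtain ⟨y', hy'⟩ := exists_eq_add' hc.1
    have h2 := hc.2
    rw [hy'] at h1 h2
    rw [ss_add h2] at h1
    obtain ⟨h3, h4, h5, h6⟩ := h _ _ (fun h0 => h1 (by rw [h0, smul_zero]))
    refine ⟨h3, ?_, ?_, ?_⟩
    · rw [map_add] at h4
      simpa using h4
    · rw [dg_add_single hp] at h5
      rw [List.sum_cons] at h5 ⊢
      rw [hy']
      convert h5 using 1
      abel
    · rw [redL_cons] at h6 ⊢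
      refine ⟨fun u => ?_, h6.2⟩
      by_cases hu : u = v
      · rw [hu]
        exact hc.2
      · rw [hy', Finsupp.add_apply, Finsupp.single_eq_of_ne hu, add_zero]
        exact h6.1 u

/-- **Exactness**. -/
theorem Sup.del_con (hp : 2 ≤ p) {n b : ℕ} {𝒜 : Set (V →₀ ℕ)} {F : Fn V k}
    (h : Sup p n (b + 1) 𝒜 F) (hd : E0.del p F = 0) (h0 : ∀ r, F [] r = 0) :
    E0.del p (E0.con p F) = F := by
  funext l r
  cases l with
  | nil => rw [del_nil, h0]
  | cons y l =>
    by_cases hb : be p y r = 0
    · obtain ⟨-, rfl⟩ := be_eq_zero hp hb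
      rw [h.eq_zero_of_degree _ (by simp)]
      simp [E0.del]
    · have h1 := con_del hp h.red (l := l) hb
      rw [hd] at h1
      have h2 : E0.con p (0 : Fn V k) (y :: l) r = 0 := by
        rw [E0.con]
        split_ifs
        · simp only [ss]
          split_ifs <;> simp
        · rfl
      rwa [h2, zero_add] at h1

/-! ### The functionals -/

variable (p) in
/-- the functionals `Θ` on functions with values, on words of length `a + 1` -/
noncomputable def theta : ℕ → Fn V k → (V →₀ ℕ) → k
  | 0, F => F [0]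
  | a + 1, F => theta a (del p (hh F))

theorem theta_zero' (F : Fn V k) (r : V →₀ ℕ) : theta p 0 F r = F [0] r := rfl

theorem theta_succ (a : ℕ) (F : Fn V k) : theta p (a + 1) F = theta p a (del p (hh F)) := rfl

theorem del_congr {F G : Fn V k} {l : List (V →₀ ℕ)} {r : V →₀ ℕ}
    (h : ∀ t r, t.length = l.length → F t r = G t r) : del p F l r = del p G l r := by
  refine Finset.sum_congr rfl fun v _ => ?_
  cases l with
  | nil => rfl
  | cons y l => exact tt_congr fun _ => h _ _ (by simp)

theorem theta_congr {a : ℕ} {F G : Fn V k} (h : ∀ l r, l.length = a + 1 → F l r = G l r)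
    (r : V →₀ ℕ) : theta p a F r = theta p a G r := by
  induction a generalizing F G with
  | zero => exact h _ _ rfl
  | succ a ih =>
    rw [theta_succ, theta_succ]
    refine ih fun l r hl => del_congr fun t r' ht => h _ _ ?_
    rw [List.length_cons, ht, hl]

theorem del_sub (F G : Fn V k) (l : List (V →₀ ℕ)) (r : V →₀ ℕ) :
    del p (fun l r => F l r - G l r) l r = del p F l r - del p G l r := by
  rw [del, del, del, ← Finset.sum_sub_distrib]
  refine Finset.sum_congr rfl fun v _ => ?_
  cases l with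
  | nil => simp [tt_nil]
  | cons y l =>
    simp only [tt]
    split_ifs
    · simp
    · rw [smul_sub]

theorem theta_sub (a : ℕ) (F G : Fn V k) (r : V →₀ ℕ) :
    theta p a (fun l r => F l r - G l r) r = theta p a F r - theta p a G r := by
  induction a generalizing F G with
  | zero => rfl
  | succ a ih =>
    rw [theta_succ, theta_succ, theta_succ, ← ih]
    refine theta_congr (fun l r _ => ?_) r
    exact del_sub (hh F) (hh G) l r

theorem del_zero (l : List (V →₀ ℕ)) (r : V →₀ ℕ) : del p (0 : Fn V k) l r = 0 := by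
  refine Finset.sum_eq_zero fun v _ => ?_
  cases l with
  | nil => rfl
  | cons y l =>
    simp only [tt]
    split_ifs <;> simp

theorem theta_zero (a : ℕ) (r : V →₀ ℕ) : theta p a (0 : Fn V k) r = 0 := by
  induction a with
  | zero => rfl
  | succ a ih =>
    rw [theta_succ, ← ih]
    exact theta_congr (fun l r _ => del_zero l r) r

/-- `Θ (b G) = Θ (∂ G)` -/
theorem theta_bF (hp : 2 ≤ p) (a : ℕ) {G : Fn V k} (hG : Red p G) (r : V →₀ ℕ) :
    theta p (a + 1) (bF G) r = theta p a (del p G) r := by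
  have h1 : theta p (a + 1) (bF G) r =
      theta p a (fun l r => del p G l r - bF (del p (hh G)) l r) r := by
    rw [theta_succ]
    refine theta_congr (fun l r hl => ?_) r
    rw [← del_bF hp, ← del_sub]
    refine del_congr fun t r' ht => hh_bF ?_ r'
    rintro rfl
    rw [List.length_nil] at ht
    omega
  rw [h1, theta_sub, sub_eq_self]
  cases a with
  | zero =>
    rw [theta_zero', bF, bb_one, if_pos rfl, del_nil]
  | succ a =>
    have hG' : Red p (hh G) := fun l r h => (redL_cons.1 (hG _ _ h)).2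
    have hD : Red p (del p (hh G)) := by
      intro l r h
      obtain ⟨v, -, h2⟩ := Finset.exists_ne_zero_of_sum_ne_zero h
      cases l with
      | nil => exact redL_nil
      | cons y l =>
        simp only [tt] at h2
        split_ifs at h2 with h3
        · exact absurd rfl h2
        · have h4 := redL_cons.1 (hG' _ _ (fun h0 => h2 (by rw [h0, smul_zero])))
          refine redL_cons.2 ⟨fun u => ?_, h4.2⟩
          have := h4.1 u
          rw [Finsupp.add_apply] at this
          omega
    rw [theta_bF hp a hD, ← theta_zero (k := k) (p := p) a r]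
    exact theta_congr (fun l r _ => del_del hp hG' l r) r

theorem con_zero (l : List (V →₀ ℕ)) (r : V →₀ ℕ) : con p (0 : Fn V k) l r = 0 := by
  cases l with
  | nil => rfl
  | cons y l =>
    rw [con]
    split_ifs
    · simp only [ss]
      split_ifs <;> simp
    · rfl

/-- A function which is closed for `b` and `∂` and killed by `Θ` is `b G` with `∂ G = 0`. -/
theorem exists_bF_eq (hp : 2 ≤ p) (𝒜 : Set (V →₀ ℕ)) (n : ℕ) : ∀ (b : ℕ) (F : Fn V k),
    Sup p (n + 1) b 𝒜 F → bF F = 0 → del p F = 0 → (∀ r, theta p n F r = 0) →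
    ∃ G : Fn V k, Sup p n b 𝒜 G ∧ bF G = F ∧ del p G = 0 ∧ ∀ r, G [] r = 0 := by
  induction n with
  | zero =>
    intro b F hF hb hd ht
    have h0 : F = 0 := by
      funext l r
      by_cases hl : l.length = 1
      · obtain ⟨y, rfl⟩ := List.length_eq_one_iff.1 hl
        by_cases hy : y = 0
        · rw [hy]
          exact ht r
        · have h1 := congrFun (congrFun hb [0, y]) r
          rw [bF, bb_cons, bb_one, if_neg hy, zero_add, sub_zero] at h1
          exact h1
      · exact hF.eq_zero_of_length (by simpa using hl) r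
    refine ⟨0, fun l r h => absurd rfl h, ?_, ?_, fun r => rfl⟩
    · rw [h0]
      funext l r
      exact bb_zero l
    · funext l r
      exact del_zero l r
  | succ n ih =>
    intro b F hF hb hd ht
    have hu : Sup p (n + 1) b 𝒜 (hh F) := hF.hh
    have hbu : bF (hh F) = F := by
      funext l r
      by_cases hl : l = []
      · subst hl
        rw [hF.eq_zero_of_length (by simp)]
        rfl
      · have h1 := hh_bF (F := F) hl r
        rw [hb] at h1
        exact (sub_eq_zero.1 h1.symm).symm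
    have hF' : Sup p (n + 1) (b + 1) 𝒜 (del p (hh F)) := hu.del hp
    have hbF' : bF (del p (hh F)) = 0 := by
      funext l r
      rw [← del_bF hp, hbu, hd]
    have hdF' : del p (del p (hh F)) = 0 := by
      funext l r
      exact del_del hp hu.red l r
    obtain ⟨G', hG', hbG', hdG', hG0⟩ := ih (b + 1) _ hF' hbF' hdF' ht
    have htt : del p (con p G') = G' := hG'.del_con hp hdG' hG0
    have hbb : ∀ G : Fn V k, bF (bF G) = 0 := fun G => by
      funext l r
      exact bb_bb l _
    refine ⟨fun l r => hh F l r - bF (con p G') l r, hu.sub ((hG'.con hp).bF hp), ?_, ?_, ?_⟩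
    · funext l r
      have h1 : bF (fun l r => hh F l r - bF (con p G') l r) l r =
          bF (hh F) l r - bF (bF (con p G')) l r := bb_sub _ _ _
      rw [h1, hbb, hbu]
      exact sub_zero _
    · funext l r
      rw [del_sub, del_bF hp, htt, hbG']
      exact sub_self _
    · intro r
      change F [0] r - 0 = 0
      rw [sub_zero]
      exact hF.eq_zero_of_length (by simp) r

/-! ### Trivial coefficients -/

/-- a cochain with trivial coefficients as a cochain with values in the resolution -/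
noncomputable def io (f : List (V →₀ ℕ) → k) : Fn V k
  | [], _ => 0
  | y :: l, r => if y = 0 ∧ r = 0 then f l else 0

theorem io_nil (f : List (V →₀ ℕ) → k) (r : V →₀ ℕ) : io f [] r = 0 := rfl

theorem io_cons (f : List (V →₀ ℕ) → k) (y : V →₀ ℕ) (l : List (V →₀ ℕ)) (r : V →₀ ℕ) :
    io f (y :: l) r = if y = 0 ∧ r = 0 then f l else 0 := rfl

theorem bF_io (f : List (V →₀ ℕ) → k) : bF (io f) = io (dd f) := by
  funext l r
  cases l with
  | nil => rfl
  | cons y l =>
    cases l with
    | nil =>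
      rw [bF, bb_one, io_nil, ite_self, io_cons, dd, ite_self]
    | cons w l =>
      rw [bF, bb_cons, io_cons, io_cons]
      by_cases h : y = 0 ∧ r = 0
      · obtain ⟨rfl, rfl⟩ := h
        have e : (fun t => io f (0 :: t) 0) = f := by
          funext t
          rw [io_cons, if_pos ⟨rfl, rfl⟩]
        rw [e, if_pos (show (0 : V →₀ ℕ) = 0 ∧ (0 : V →₀ ℕ) = 0 from ⟨rfl, rfl⟩), dd_cons,
          zero_add]
        simp
      · have e : (fun t => io f (y :: t) r) = (0 : List (V →₀ ℕ) → k) := by
          funext t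
          rw [io_cons, if_neg h]
          rfl
        rw [e, bb_zero, if_neg h, if_neg, sub_zero]
        rintro ⟨h1, h2⟩
        rw [add_eq_zero] at h1
        exact h ⟨h1.1, h2⟩

theorem del_io (hp : 2 ≤ p) (f : List (V →₀ ℕ) → k) : del p (io f) = 0 := by
  funext l r
  refine Finset.sum_eq_zero fun v _ => ?_
  cases l with
  | nil => rfl
  | cons y l =>
    by_cases h : r v = 0
    · exact tt_of_eq_zero h
    · obtain ⟨r, rfl⟩ := exists_eq_add h
      rw [tt_add, io_cons, if_neg, smul_zero]
      rintro ⟨h1, -⟩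
      have h2 := DFunLike.congr_fun h1 v
      rw [Finsupp.add_apply, Finsupp.single_eq_same, Finsupp.coe_zero, Pi.zero_apply] at h2
      have := cc_pos hp (r v + 1)
      omega

/-- supports of cochains with trivial coefficients -/
def SupT (p : ℕ) (n : ℕ) (𝒜 : Set (V →₀ ℕ)) (f : List (V →₀ ℕ) → k) : Prop :=
  ∀ l, f l ≠ 0 → l.length = n ∧ l.sum ∈ 𝒜 ∧ RedL p l

theorem SupT.io (hp : 2 ≤ p) {n : ℕ} {𝒜 : Set (V →₀ ℕ)} {f : List (V →₀ ℕ) → k}
    (h : SupT p n 𝒜 f) : Sup p (n + 1) 0 𝒜 (io f) := by
  intro l r h1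
  cases l with
  | nil => exact absurd rfl h1
  | cons y l =>
    rw [io_cons] at h1
    split_ifs at h1 with h2
    · obtain ⟨rfl, rfl⟩ := h2
      obtain ⟨h3, h4, h5⟩ := h l h1
      refine ⟨by simp [h3], by simp, ?_, ?_⟩
      · have : dg p (0 : V →₀ ℕ) = 0 := by
          ext v
          simp [dg1]
        rw [this, add_zero, List.sum_cons, zero_add]
        exact h4
      · rw [redL_cons]
        exact ⟨fun v => by simp; omega, h5⟩
    · exact absurd rfl h1

variable (p) in
/-- the functional `Θ_r` on cochains of degree `n` with trivial coefficients -/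
noncomputable def Th (n : ℕ) (f : List (V →₀ ℕ) → k) (r : V →₀ ℕ) : k := theta p n (io f) r

/-- **`Θ ∘ d = 0`**. -/
theorem Th_dd (hp : 2 ≤ p) (n : ℕ) {f : List (V →₀ ℕ) → k} (hf : ∀ l, f l ≠ 0 → RedL p l)
    (r : V →₀ ℕ) : Th p (n + 1) (dd f) r = 0 := by
  have hr : Red p (io f) := by
    intro l r h
    cases l with
    | nil => exact redL_nil
    | cons y l =>
      rw [io_cons] at h
      split_ifs at h with h2
      · rw [redL_cons, h2.1]
        exact ⟨fun v => by simp; omega, hf l h⟩
      · exact absurd rfl h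
  rw [Th, ← bF_io, theta_bF hp n hr, del_io hp]
  exact theta_zero n r

/-- **A cocycle killed by all `Θ_r` is a coboundary.** -/
theorem exists_dd_eq (hp : 2 ≤ p) {n : ℕ} {𝒜 : Set (V →₀ ℕ)} {f : List (V →₀ ℕ) → k}
    (hf : SupT p (n + 1) 𝒜 f) (hd : dd f = 0) (ht : ∀ r, Th p (n + 1) f r = 0) :
    ∃ g : List (V →₀ ℕ) → k, SupT p n 𝒜 g ∧ dd g = f := by
  have hp1 : 1 < p := by omega
  obtain ⟨G, hG, hbG, hdG, hG0⟩ := exists_bF_eq hp 𝒜 (n + 1) 0 (io f) (hf.io hp)
    (by rw [bF_io, hd]; funext l r; cases l <;> simp [io]) (del_io hp f) ht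
  have hGi : G = io (fun l => G (0 :: l) 0) := by
    funext l r
    cases l with
    | nil => rw [hG0, io_nil]
    | cons y l =>
      rw [io_cons]
      by_cases hr : r = 0
      · subst hr
        by_cases hy : y = 0
        · rw [if_pos ⟨hy, rfl⟩, hy]
        · rw [if_neg fun h => hy h.1]
          obtain ⟨v, hv⟩ : ∃ v, y v ≠ 0 := by
            by_contra h
            push Not at h
            exact hy (Finsupp.ext h)
          obtain ⟨y, rfl⟩ := exists_eq_add hv
          have h1 := congrFun (congrFun hdG (y :: l)) (0 + Finsupp.single v 1)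
          rw [del_eq (s := {v}), Finset.sum_singleton, tt_add] at h1
          · have h2 : cc p ((0 : V →₀ ℕ) v + 1) = 1 := rfl
            rw [h2] at h1
            have h3 := congrArg (fun x => sg v (0 : V →₀ ℕ) • x) h1
            simp only [smul_smul, sg_mul_self, one_smul] at h3
            rw [h3]
            simp
          · rw [zero_add]
            exact Finsupp.support_single_subset
      · rw [if_neg fun h => hr h.2]
        apply hG.eq_zero_of_degree
        intro h
        exact hr ((Finsupp.degree_eq_zero_iff _).1 h)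
  refine ⟨fun l => G (0 :: l) 0, fun l h => ?_, ?_⟩
  · obtain ⟨h1, -, h3, h4⟩ := hG _ _ h
    refine ⟨by simpa using h1, ?_, (redL_cons.1 h4).2⟩
    have : dg p (0 : V →₀ ℕ) = 0 := by
      ext v
      simp [dg1]
    rwa [this, add_zero, List.sum_cons, zero_add] at h3
  · rw [hGi, bF_io] at hbG
    funext l
    have h1 := congrFun (congrFun hbG (0 :: l)) 0
    rw [io_cons, io_cons, if_pos ⟨rfl, rfl⟩, if_pos ⟨rfl, rfl⟩] at h1
    exact h1

end Vale.Agent.P257.H314.E0
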