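import Mathlib

/-!
# P257 (helper314): the `E₀`-level: the words complex

`V` a linearly ordered set of variables, `k` a commutative ring, `p ≥ 2`. Cochains are functions on
words (lists) of exponents `V →₀ ℕ`, vanishing on words with a digit `≥ p`; this is the dual of the
bar complex of `k[y_v] / (y_v ^ p)`.

* `bb l G` : the part of the cobar differential not involving the left end;
* `dd f` : the cobar differential;
* `del F` : the differential of the resolution, `(∂F)(y; r) = ∑ ± F(y + c(r_v) e_v; r - 1_v)`,
  `c = 1` or `p - 1` alternately.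
-/

set_option linter.unusedSectionVars false

namespace Vale.Agent.P257.H314.E0

open Finset

universe uV uk

variable {V : Type uV} [LinearOrder V] {k : Type uk} [CommRing k]

/-! ### The bar differential -/

section bb

variable {M : Type*} [AddCommGroup M]

/-- the part of the cobar differential not involving the left end -/
noncomputable def bb : List (V →₀ ℕ) → (List (V →₀ ℕ) → M) → M
  | [], _ => 0
  | [w], G => if w = 0 then G [] else 0
  | y :: w :: l, G => G ((y + w) :: l) - bb (w :: l) (fun t => G (y :: t))

@[simp] theorem bb_nil (G : List (V →₀ ℕ) → M) : bb [] G = 0 := rfl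

theorem bb_one (w : V →₀ ℕ) (G : List (V →₀ ℕ) → M) :
    bb [w] G = if w = 0 then G [] else 0 := rfl

theorem bb_cons (y w : V →₀ ℕ) (l : List (V →₀ ℕ)) (G : List (V →₀ ℕ) → M) :
    bb (y :: w :: l) G = G ((y + w) :: l) - bb (w :: l) (fun t => G (y :: t)) := rfl

theorem bb_zero (l : List (V →₀ ℕ)) : bb l (0 : List (V →₀ ℕ) → M) = 0 := by
  induction l with
  | nil => rfl
  | cons y l ih =>
    cases l with
    | nil => simp [bb_one]
    | cons w l =>
      rw [bb_cons]
      have : (fun t : List (V →₀ ℕ) => (0 : List (V →₀ ℕ) → M) (y :: t)) = 0 := rfl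
      rw [this, ih]
      simp

theorem bb_add (l : List (V →₀ ℕ)) (G G' : List (V →₀ ℕ) → M) :
    bb l (fun t => G t + G' t) = bb l G + bb l G' := by
  induction l generalizing G G' with
  | nil => simp
  | cons y l ih =>
    cases l with
    | nil => simp only [bb_one]; split_ifs <;> simp
    | cons w l =>
      rw [bb_cons, bb_cons, bb_cons, ih]
      abel

theorem bb_sub (l : List (V →₀ ℕ)) (G G' : List (V →₀ ℕ) → M) :
    bb l (fun t => G t - G' t) = bb l G - bb l G' := by
  induction l generalizing G G' with
  | nil => simp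
  | cons y l ih =>
    cases l with
    | nil => simp only [bb_one]; split_ifs <;> simp
    | cons w l =>
      rw [bb_cons, bb_cons, bb_cons, ih]
      abel

theorem bb_map {N : Type*} [AddCommGroup N] (φ : M →+ N) (l : List (V →₀ ℕ))
    (G : List (V →₀ ℕ) → M) : bb l (fun t => φ (G t)) = φ (bb l G) := by
  induction l generalizing G with
  | nil => simp
  | cons y l ih =>
    cases l with
    | nil => simp only [bb_one]; split_ifs <;> simp
    | cons w l =>
      rw [bb_cons, bb_cons, ih, map_sub]

theorem bb_sum {ι : Type*} (s : Finset ι) (l : List (V →₀ ℕ)) (G : ι → List (V →₀ ℕ) → M) :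
    bb l (fun t => ∑ i ∈ s, G i t) = ∑ i ∈ s, bb l (G i) := by
  classical
  induction s using Finset.induction_on with
  | empty =>
    simp only [Finset.sum_empty]
    exact bb_zero l
  | insert a s ha ih =>
    simp only [Finset.sum_insert ha]
    rw [bb_add, ih]

/-- `b ∘ b = 0` -/
theorem bb_bb (l : List (V →₀ ℕ)) (G : List (V →₀ ℕ) → M) : bb l (fun t => bb t G) = 0 := by
  induction l generalizing G with
  | nil => rfl
  | cons y l ih =>
    cases l with
    | nil => simp only [bb_one, bb_nil, ite_self]
    | cons w l =>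
      cases l with
      | nil =>
        rw [bb_cons, bb_one, bb_one, bb_one]
        by_cases hw : w = 0
        · simp [hw]
        · simp [hw]
      | cons x l =>
        have h1 := ih (fun t => G (y :: t))
        rw [bb_cons] at h1
        rw [bb_cons, bb_cons (y + w) x l, bb_cons w x l]
        have e : (fun t : List (V →₀ ℕ) => bb (y :: w :: t) G) =
            fun t => G ((y + w) :: t) - bb (w :: t) (fun t => G (y :: t)) := rfl
        rw [bb_cons y (w + x) l, e, bb_sub, ← add_assoc]
        rw [← h1]
        abel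

/-- `b` only depends on the values on shorter words. -/
theorem bb_congr {n : ℕ} {l : List (V →₀ ℕ)} (hl : l.length = n + 1)
    {G G' : List (V →₀ ℕ) → M} (h : ∀ t, t.length = n → G t = G' t) : bb l G = bb l G' := by
  induction l generalizing G G' n with
  | nil => simp at hl
  | cons y l ih =>
    cases l with
    | nil =>
      simp only [List.length_cons, List.length_nil] at hl
      rw [bb_one, bb_one, h [] (by simp; omega)]
    | cons w l =>
      simp only [List.length_cons] at hl
      rw [bb_cons, bb_cons, h _ (by simp; omega)]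
      congr 1
      refine ih (n := n - 1) (by simp; omega) fun t ht => h _ (by simp; omega)

/-- a word all of whose digits are `< p` -/
def RedL (p : ℕ) (l : List (V →₀ ℕ)) : Prop := ∀ e ∈ l, ∀ v, e v < p

theorem redL_cons {p : ℕ} {y : V →₀ ℕ} {l : List (V →₀ ℕ)} :
    RedL p (y :: l) ↔ (∀ v, y v < p) ∧ RedL p l := by
  simp [RedL]

theorem redL_nil {p : ℕ} : RedL p ([] : List (V →₀ ℕ)) := by simp [RedL]

/-- The words which contribute to `bb l G`. -/
theorem bb_ne_zero {p : ℕ} (hp : 0 < p) {l : List (V →₀ ℕ)} {G : List (V →₀ ℕ) → M}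
    (h : bb l G ≠ 0) :
    ∃ t, G t ≠ 0 ∧ t.length + 1 = l.length ∧ t.sum = l.sum ∧ (RedL p t → RedL p l) := by
  induction l generalizing G with
  | nil => exact absurd rfl h
  | cons y l ih =>
    cases l with
    | nil =>
      rw [bb_one] at h
      split_ifs at h with hy
      · exact ⟨[], h, rfl, by simp [hy], fun _ => by simp [RedL, hy, hp]⟩
      · exact absurd rfl h
    | cons w l =>
      rw [bb_cons] at h
      by_cases h1 : G ((y + w) :: l) = 0
      · rw [h1, zero_sub, neg_ne_zero] at h
        obtain ⟨t, ht, hl, hs, hr⟩ := ih h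
        refine ⟨y :: t, ht, by simp only [List.length_cons] at hl ⊢; omega, ?_, ?_⟩
        · rw [List.sum_cons, hs, List.sum_cons (a := y)]
        · rw [redL_cons, redL_cons]
          exact fun h => ⟨h.1, hr h.2⟩
      · refine ⟨_, h1, by simp, by simp [add_assoc], ?_⟩
        rw [redL_cons, redL_cons, redL_cons]
        rintro ⟨h2, h3⟩
        refine ⟨fun v => ?_, fun v => ?_, h3⟩
        · have := h2 v
          rw [Finsupp.add_apply] at this
          omega
        · have := h2 v
          rw [Finsupp.add_apply] at this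
          omega

end bb

/-! ### The cobar differential with trivial coefficients -/

/-- the cobar differential -/
noncomputable def dd (f : List (V →₀ ℕ) → k) : List (V →₀ ℕ) → k
  | [] => 0
  | w :: l => (if w = 0 then f l else 0) - bb (w :: l) f

theorem dd_cons (f : List (V →₀ ℕ) → k) (w : V →₀ ℕ) (l : List (V →₀ ℕ)) :
    dd f (w :: l) = (if w = 0 then f l else 0) - bb (w :: l) f := rfl

/-! ### Shifts -/

/-- `1` for odd `n`, `p - 1` for even `n` -/
def cc (p n : ℕ) : ℕ := if n % 2 = 1 then 1 else p - 1

theorem cc_add {p : ℕ} (hp : 2 ≤ p) (n : ℕ) : cc p n + cc p (n + 1) = p := by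
  unfold cc
  split_ifs <;> omega

theorem cc_pos {p : ℕ} (hp : 2 ≤ p) (n : ℕ) : 0 < cc p n := by
  unfold cc
  split_ifs <;> omega

/-- the degree of `e_n`: `ε + p m` for `n = ε + 2 m` -/
def dg1 (p n : ℕ) : ℕ := n % 2 + p * (n / 2)

theorem dg1_succ {p : ℕ} (hp : 2 ≤ p) (n : ℕ) : dg1 p (n + 1) = dg1 p n + cc p (n + 1) := by
  unfold dg1 cc
  rcases Nat.even_or_odd' n with ⟨m, rfl | rfl⟩
  · have h1 : (2 * m + 1) / 2 = m := by omega
    have h2 : (2 * m) / 2 = m := by omega
    rw [h1, h2, if_pos (by omega)]
    omega
  · have h1 : (2 * m + 1 + 1) / 2 = m + 1 := by omega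
    have h2 : (2 * m + 1) / 2 = m := by omega
    rw [h1, h2, if_neg (by omega), mul_add]
    omega

/-- the multidegree of `e_r` -/
noncomputable def dg (p : ℕ) (r : V →₀ ℕ) : V →₀ ℕ := r.mapRange (dg1 p) (by simp [dg1])

@[simp] theorem dg_apply (p : ℕ) (r : V →₀ ℕ) (v : V) : dg p r v = dg1 p (r v) := rfl

/-- the sign `(-1) ^ ∑_{u < v} r_u` -/
noncomputable def sg (v : V) (r : V →₀ ℕ) : ℤ := (-1) ^ (r.filter (· < v)).degree

theorem sg_mul_self (v : V) (r : V →₀ ℕ) : sg v r * sg v r = 1 := by
  rw [sg, ← mul_pow]
  simp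

theorem sg_add (v : V) (r r' : V →₀ ℕ) : sg v (r + r') = sg v r * sg v r' := by
  rw [sg, sg, sg, Finsupp.filter_add, map_add, pow_add]

theorem sg_single (v w : V) : sg v (Finsupp.single w 1) = if w < v then -1 else 1 := by
  rw [sg]
  split_ifs with h
  · rw [Finsupp.filter_single_of_pos (fun x => x < v) h]
    simp
  · rw [Finsupp.filter_single_of_neg (fun x => x < v) h]
    simp

theorem sg_add_single (v w : V) (r : V →₀ ℕ) :
    sg v (r + Finsupp.single w 1) = if w < v then - sg v r else sg v r := by
  rw [sg_add, sg_single]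
  split_ifs <;> simp

end Vale.Agent.P257.H314.E0
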